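import Vale.Agent.P101.FQuot

/-! P133: working definitions in a unital C*-algebra, ramp functions, small order lemmas. -/

namespace Vale.Agent.P133

open scoped Vale.Agent.P101.F

universe u

variable {E : Type u} [CStarAlgebra E]

/-- `c` is alive for the reference `r` -/
def Al (r c : E) : Prop :=
  ∀ (Q : Type u) [CStarAlgebra Q] (q : E →⋆ₐ[ℂ] Q), q c = 0 → ‖q r‖ < 1

/-- `x` lies in the closed ideal generated by `c` -/
def Lt (x c : E) : Prop :=
  ∀ (Q : Type u) [CStarAlgebra Q] (q : E →⋆ₐ[ℂ] Q), q c = 0 → q x = 0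

/-- `x` lies in the right ideal `a E` -/
def In (x a : E) : Prop := ∃ r, x = a * r

/-- the angle between `a E` and `b E` with respect to `x` -/
def Ang (a x b : E) (ρ : ℝ) : Prop :=
  ∀ r r' : E, ‖star (a * r) * x * (b * r')‖ ≤ ρ * ‖a * r‖ * ‖b * r'‖

/-- properly infinite -/
def PI (b : E) : Prop :=
  ∀ ε : ℝ, 0 < ε → ∃ s t : E, ‖star s * b * s - b‖ < ε ∧ ‖star t * b * t - b‖ < ε ∧
    ‖star s * b * t‖ < ε

/-- all positive elements of `a E` are properly infinite -/
def HP (a : E) : Prop := ∀ c : E, 0 ≤ c → In c a → PI c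

/-- real ramp function, `0` left of `s` and `1` right of `t` -/
noncomputable def ramp (s t u : ℝ) : ℝ := max 0 (min 1 ((u - s) / (t - s)))

/-- ramp of an element -/
noncomputable def rmp (s t : ℝ) (y : E) : E := cfc (ramp s t) y

theorem In.refl (a : E) : In a a := ⟨1, (mul_one a).symm⟩

theorem In.trans {x a b : E} (h : In x a) (h' : In a b) : In x b := by
  obtain ⟨r, rfl⟩ := h
  obtain ⟨r', rfl⟩ := h'
  exact ⟨r' * r, mul_assoc _ _ _⟩

theorem In.mul {x a : E} (h : In x a) (y : E) : In (x * y) a := by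
  obtain ⟨r, rfl⟩ := h
  exact ⟨r * y, mul_assoc _ _ _⟩

theorem In.add {x y a : E} (h : In x a) (h' : In y a) : In (x + y) a := by
  obtain ⟨r, rfl⟩ := h
  obtain ⟨r', rfl⟩ := h'
  exact ⟨r + r', (mul_add _ _ _).symm⟩

theorem In.sub {x y a : E} (h : In x a) (h' : In y a) : In (x - y) a := by
  obtain ⟨r, rfl⟩ := h
  obtain ⟨r', rfl⟩ := h'
  exact ⟨r - r', (mul_sub _ _ _).symm⟩

theorem In.fix {x a f : E} (h : In x a) (hf : f * a = a) : f * x = x := by
  obtain ⟨r, rfl⟩ := h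
  rw [← mul_assoc, hf]

theorem In.of_fix {x f : E} (h : f * x = x) : In x f := ⟨x, h.symm⟩

theorem In.lt {x a : E} (h : In x a) : Lt x a := by
  obtain ⟨r, rfl⟩ := h
  intro Q _ q hq
  rw [map_mul, hq, zero_mul]

theorem HP.mono {a c : E} (h : HP a) (hc : In c a) : HP c := fun d hd hdc => h d hd (hdc.trans hc)

theorem HP.sq {a c : E} (h : HP a) (hc : In c a) (hs : IsSelfAdjoint c) : PI (c * c) :=
  h _ (by simpa [hs.star_eq] using star_mul_self_nonneg c) (hc.mul c)

theorem Ang.mono {a x b c d : E} {ρ : ℝ} (h : Ang a x b ρ) (hc : In c a) (hd : In d b) :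
    Ang c x d ρ := by
  obtain ⟨r, rfl⟩ := hc
  obtain ⟨r', rfl⟩ := hd
  intro s s'
  simpa only [mul_assoc] using h (r * s) (r' * s')

theorem Ang.apply {a x b c d : E} {ρ : ℝ} (h : Ang a x b ρ) (hc : In c a) (hd : In d b) :
    ‖star c * x * d‖ ≤ ρ * ‖c‖ * ‖d‖ := by
  simpa using h.mono hc hd 1 1

theorem Al.mono {r c d : E} (h : Al r c) (hc : Lt c d) : Al r d :=
  fun Q _ q hq => h Q q (hc Q q hq)

theorem Lt.trans {x c d : E} (h : Lt x c) (hc : Lt c d) : Lt x d :=
  fun Q _ q hq => h Q q (hc Q q hq)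

section hom
variable {Q : Type u} [CStarAlgebra Q] (q : E →⋆ₐ[ℂ] Q)

theorem q_norm (x : E) : ‖q x‖ ≤ ‖x‖ := NonUnitalStarAlgHom.norm_apply_le q x

theorem q_cont : Continuous q := map_continuous q

theorem q_le {x y : E} (h : x ≤ y) : q x ≤ q y := OrderHomClass.mono q h

theorem q_nonneg {x : E} (h : 0 ≤ x) : 0 ≤ q x := by
  simpa using q_le q h

theorem q_rsmul (t : ℝ) (x : E) : q (t • x) = t • q x := by
  rw [← Complex.coe_smul, map_smul, Complex.coe_smul]

theorem q_alg (t : ℝ) : q (algebraMap ℝ E t) = algebraMap ℝ Q t := by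
  rw [Algebra.algebraMap_eq_smul_one, q_rsmul, map_one, Algebra.algebraMap_eq_smul_one]

theorem q_sa {x : E} (h : IsSelfAdjoint x) : IsSelfAdjoint (q x) := h.map q

theorem q_mul_star_eq_zero {x : E} : q (x * star x) = 0 ↔ q x = 0 := by
  rw [map_mul, map_star, CStarRing.mul_star_self_eq_zero_iff]

theorem q_star_mul_eq_zero {x : E} : q (star x * x) = 0 ↔ q x = 0 := by
  rw [map_mul, map_star, CStarRing.star_mul_self_eq_zero_iff]

theorem PI.map {b : E} (h : PI b) : PI (q b) := fun ε hε => by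
  obtain ⟨s, t, h1, h2, h3⟩ := h ε hε
  refine ⟨q s, q t, ?_, ?_, ?_⟩
  · simpa [map_star] using (q_norm q _).trans_lt h1
  · simpa [map_star] using (q_norm q _).trans_lt h2
  · simpa [map_star] using (q_norm q _).trans_lt h3

end hom

end Vale.Agent.P133
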