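import Vale.Agent.P133.Ramp

/-! P133: the cone lemma, universal quotients, lifting. -/

namespace Vale.Agent.P133

open scoped Vale.Agent.P101.F

universe u

variable {E : Type u} [CStarAlgebra E]

/-- finite sums of `y c y*` -/
def Cone (c : E) : AddSubmonoid E := AddSubmonoid.closure {z | ∃ y, z = y * c * star y}

/-- the elements `z` with `a z b + (a z b)*` below an element of the cone -/
def ConeIdeal (c : E) : Ideal E where
  carrier := {z | ∀ a b : E, ∃ Y ∈ Cone c, a * z * b + star (a * z * b) ≤ Y}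
  add_mem' := fun {x y} hx hy a b => by
    obtain ⟨Y, h1, h2⟩ := hx a b
    obtain ⟨Z, h3, h4⟩ := hy a b
    refine ⟨Y + Z, add_mem h1 h3, le_of_eq_of_le ?_ (add_le_add h2 h4)⟩
    simp only [mul_add, add_mul, star_add]
    abel
  zero_mem' := fun a b => ⟨0, zero_mem _, by simp⟩
  smul_mem' := fun r x hx a b => by
    simpa only [smul_eq_mul, mul_assoc] using hx (a * r) b

instance (c : E) : (ConeIdeal c).IsTwoSided where
  mul_mem_of_left := fun {x} r hx a b => by
    simpa only [mul_assoc] using hx a (r * b)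

instance (c : E) : (ConeIdeal c).closure.IsTwoSided where
  mul_mem_of_left := fun {x} r hx =>
    map_mem_closure (f := fun z => z * r) (by fun_prop) hx fun _ hz =>
      Ideal.mul_mem_right r _ hz

theorem mem_coneIdeal {c : E} (hc : 0 ≤ c) : c ∈ ConeIdeal c := fun a b => by
  refine ⟨a * c * star a + star b * c * star (star b), add_mem
    (AddSubmonoid.subset_closure ⟨a, rfl⟩) (AddSubmonoid.subset_closure ⟨star b, rfl⟩), ?_⟩
  have h := star_right_conjugate_nonneg hc (a - star b)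
  rw [← sub_nonneg]
  refine le_of_le_of_eq h ?_
  simp only [star_sub, star_star, star_mul, hc.star_eq]
  noncomm_ring

theorem cone {h c : E} (hh : IsSelfAdjoint h) (hc : 0 ≤ c) (H : Al h c) :
    ∃ t : ℝ, 0 ≤ t ∧ t < 1 ∧ ∃ Y ∈ Cone c, h ≤ t • (1 : E) + Y := by
  obtain ⟨Q, _, q, -, hk, hn⟩ := P101.F.exists_quot (ConeIdeal c).closure isClosed_closure
  have h1 := H Q q ((hk c).2 (subset_closure (mem_coneIdeal hc)))
  rw [hn, Ideal.coe_closure, Metric.infDist_closure,
    Metric.infDist_lt_iff ⟨0, (ConeIdeal c).zero_mem⟩] at h1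
  obtain ⟨z, hz, h2⟩ := h1
  obtain ⟨Y, hY, h3⟩ := hz 1 ((2⁻¹ : ℝ) • 1)
  refine ⟨dist h z, dist_nonneg, h2, Y, hY, ?_⟩
  refine le_trans ?_ (add_le_add_right h3 _)
  simp only [one_mul, mul_smul_comm, mul_one, star_smul, star_trivial]
  have hs : IsSelfAdjoint ((2⁻¹ : ℝ) • z + (2⁻¹ : ℝ) • star z) := by
    rw [← smul_add]
    exact (IsSelfAdjoint.all _).smul (IsSelfAdjoint.add_star_self z)
  rw [add_comm]
  refine le_add_of_norm_sub hh hs ?_
  have e : h - ((2⁻¹ : ℝ) • z + (2⁻¹ : ℝ) • star z) =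
      (2⁻¹ : ℝ) • (h - z) + (2⁻¹ : ℝ) • star (h - z) := by
    rw [star_sub, hh.star_eq]; module
  rw [e, dist_eq_norm]
  refine (norm_add_le _ _).trans ?_
  rw [norm_smul, norm_smul, norm_star, Real.norm_of_nonneg (by norm_num)]
  linarith

theorem cone_norm {c Y : E} (hY : Y ∈ Cone c) : ∃ M : ℝ, 0 ≤ M ∧
    ∀ (Q : Type u) [CStarAlgebra Q] (q : E →⋆ₐ[ℂ] Q), ‖q Y‖ ≤ M * ‖q c‖ := by
  induction hY using AddSubmonoid.closure_induction with
  | mem x hx =>
    obtain ⟨y, rfl⟩ := hx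
    refine ⟨‖y‖ * ‖y‖, by positivity, fun Q _ q => ?_⟩
    rw [map_mul, map_mul]
    have h1 := q_norm q y
    have h2 := q_norm q (star y)
    rw [norm_star] at h2
    calc _ ≤ ‖q y‖ * ‖q c‖ * ‖q (star y)‖ := norm_mul₃_le
      _ ≤ ‖y‖ * ‖q c‖ * ‖y‖ := by gcongr
      _ = _ := by ring
  | zero => exact ⟨0, le_rfl, fun Q _ q => by simp⟩
  | add x y _ _ hx hy =>
    obtain ⟨M, h1, h2⟩ := hx
    obtain ⟨N, h3, h4⟩ := hy
    refine ⟨M + N, by positivity, fun Q _ q => ?_⟩
    rw [map_add, add_mul]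
    exact (norm_add_le _ _).trans (add_le_add (h2 Q q) (h4 Q q))

theorem Al.star_mul {r c : E} (H : Al r c) : Al (star r * r) c := fun Q _ q hq => by
  have := H Q q hq
  rw [map_mul, map_star, CStarRing.norm_star_mul_self]
  nlinarith [norm_nonneg (q r)]

theorem Al.mul_star {r c : E} (H : Al r c) : Al (r * star r) c := fun Q _ q hq => by
  have := H Q q hq
  rw [map_mul, map_star, CStarRing.norm_self_mul_star]
  nlinarith [norm_nonneg (q r)]

/-- quantitative form of aliveness -/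
theorem Al.unif {r c : E} (hc : 0 ≤ c) (H : Al r c) : ∃ δ t : ℝ, 0 < δ ∧ 0 ≤ t ∧ t < 1 ∧
    ∀ (Q : Type u) [CStarAlgebra Q] (q : E →⋆ₐ[ℂ] Q), ‖q c‖ ≤ δ → ‖q r‖ ^ 2 ≤ t := by
  obtain ⟨t, ht0, ht, Y, hY, h⟩ := cone (IsSelfAdjoint.star_mul_self r) hc H.star_mul
  obtain ⟨M, hM, hN⟩ := cone_norm hY
  refine ⟨(1 - t) / (2 * (M + 1)), (1 + t) / 2, by have := sub_pos.2 ht; positivity, by positivity,
    by linarith, fun Q _ q hq => ?_⟩
  have h1 := CStarAlgebra.norm_le_norm_of_nonneg_of_le (q_nonneg q (star_mul_self_nonneg r)) (q_le q h)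
  rw [map_mul, map_star, CStarRing.norm_star_mul_self, map_add, q_rsmul, map_one] at h1
  have h2 : ‖t • (1 : Q)‖ ≤ t := by
    rw [norm_smul, Real.norm_of_nonneg ht0]
    exact mul_le_of_le_one_right ht0 norm_one_le
  have h3 : M * ‖q c‖ ≤ (1 - t) / 2 := by
    rw [le_div_iff₀ (by positivity)] at hq
    nlinarith [norm_nonneg (q c)]
  have h4 := norm_add_le (t • (1 : Q)) (q Y)
  have h5 := hN Q q
  nlinarith

theorem Al.unif' {r c : E} (hc : 0 ≤ c) (H : Al r c) : ∃ δ : ℝ, 0 < δ ∧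
    ∀ (Q : Type u) [CStarAlgebra Q] (q : E →⋆ₐ[ℂ] Q), ‖q c‖ ≤ δ → ‖q r‖ < 1 := by
  obtain ⟨δ, t, h1, -, h2, h3⟩ := H.unif hc
  refine ⟨δ, h1, fun Q _ q hq => ?_⟩
  have := h3 Q q hq
  nlinarith [norm_nonneg (q r)]

/-- the universal quotient killing `m` -/
theorem exists_univ (m : E) : ∃ (Q : Type u) (_ : CStarAlgebra Q) (π : E →⋆ₐ[ℂ] Q),
    Function.Surjective π ∧ π m = 0 ∧
      ∀ (Q' : Type u) [CStarAlgebra Q'] (q : E →⋆ₐ[ℂ] Q'), q m = 0 →
        ∃ q' : Q →⋆ₐ[ℂ] Q', ∀ x, q' (π x) = q x := by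
  let I : Ideal E :=
    { carrier := {x | Lt x m}
      add_mem' := fun {x y} hx hy Q _ q hq => by rw [map_add, hx Q q hq, hy Q q hq, add_zero]
      zero_mem' := fun Q _ q _ => map_zero q
      smul_mem' := fun r x hx Q _ q hq => by rw [smul_eq_mul, map_mul, hx Q q hq, mul_zero] }
  have : I.IsTwoSided := ⟨fun {x} r hx Q _ q hq => by rw [map_mul, hx Q q hq, zero_mul]⟩
  have hI : IsClosed (I : Set E) := by
    refine isClosed_of_closure_subset fun x hx Q _ q hq => ?_
    exact (isClosed_eq (q_cont q) continuous_const).closure_subset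
      (closure_mono (fun z (hz : Lt z m) => hz Q q hq) hx)
  obtain ⟨Q, _, π, hs, hk, -⟩ := P101.F.exists_quot I hI
  refine ⟨Q, inferInstance, π, hs, (hk m).2 fun Q _ q hq => hq, fun Q' _ q hq => ?_⟩
  have key (x : E) : q (Function.surjInv hs (π x)) = q x := by
    rw [← sub_eq_zero, ← map_sub]
    refine (hk _).1 ?_ Q' q hq
    rw [map_sub, Function.surjInv_eq hs, sub_self]
  refine ⟨{ toFun := fun y => q (Function.surjInv hs y)
            map_one' := by rw [← map_one π, key, map_one]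
            map_mul' := ?_
            map_zero' := by rw [← map_zero π, key, map_zero]
            map_add' := ?_
            commutes' := fun c => by rw [← AlgHomClass.commutes π, key, AlgHomClass.commutes]
            map_star' := ?_ }, key⟩
  · intro x y
    obtain ⟨x, rfl⟩ := hs x
    obtain ⟨y, rfl⟩ := hs y
    rw [← map_mul, key, key, key, map_mul]
  · intro x y
    obtain ⟨x, rfl⟩ := hs x
    obtain ⟨y, rfl⟩ := hs y
    rw [← map_add, key, key, key, map_add]
  · intro x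
    obtain ⟨x, rfl⟩ := hs x
    rw [← map_star, key, key, map_star]

theorem cone_split {u m Y : E} (hu : 0 ≤ u) (hm : 0 ≤ m) (hY : Y ∈ Cone (u + m)) :
    ∃ i j : E, 0 ≤ i ∧ 0 ≤ j ∧ Lt i u ∧ Lt j m ∧ Y = i + j := by
  induction hY using AddSubmonoid.closure_induction with
  | mem x hx =>
    obtain ⟨y, rfl⟩ := hx
    exact ⟨y * u * star y, y * m * star y, star_right_conjugate_nonneg hu y,
      star_right_conjugate_nonneg hm y, fun Q _ q hq => by simp [hq], fun Q _ q hq => by simp [hq],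
      by noncomm_ring⟩
  | zero => exact ⟨0, 0, le_rfl, le_rfl, fun Q _ q _ => map_zero q, fun Q _ q _ => map_zero q, by simp⟩
  | add x y _ _ hx hy =>
    obtain ⟨i, j, h1, h2, h3, h4, rfl⟩ := hx
    obtain ⟨i', j', h1', h2', h3', h4', rfl⟩ := hy
    exact ⟨i + i', j + j', add_nonneg h1 h1', add_nonneg h2 h2',
      fun Q _ q hq => by rw [map_add, h3 Q q hq, h3' Q q hq, add_zero],
      fun Q _ q hq => by rw [map_add, h4 Q q hq, h4' Q q hq, add_zero], by abel⟩

/-- lifting of aliveness from a quotient -/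
theorem lift_alive {k ω u m : E} (hk : IsSelfAdjoint k) (hk1 : ‖k‖ ≤ 1) (hω : k * ω = ω)
    (hu : 0 ≤ u) (hm : 0 ≤ m)
    (H : ∀ (Q : Type u) [CStarAlgebra Q] (q : E →⋆ₐ[ℂ] Q), q u = 0 → q m = 0 → ‖q ω‖ < 1) :
    ∃ j : E, 0 ≤ j ∧ Lt j m ∧ Al ω (u + k * j * k) := by
  have H' : Al ω (u + m) := fun Q _ q hq => by
    rw [map_add] at hq
    obtain ⟨h1, h2⟩ := eq_zero_of_add_eq_zero (q_nonneg q hu) (q_nonneg q hm) hq
    exact H Q q h1 h2
  obtain ⟨t, ht0, ht, Y, hY, h⟩ := cone (IsSelfAdjoint.mul_star_self ω) (add_nonneg hu hm) H'.mul_star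
  obtain ⟨i, j, hi, hj, hiu, hjm, rfl⟩ := cone_split hu hm hY
  refine ⟨j, hj, hjm, fun Q _ q hq => ?_⟩
  rw [map_add] at hq
  obtain ⟨h1, h2⟩ := eq_zero_of_add_eq_zero (q_nonneg q hu) (q_nonneg q (hk.conjugate_nonneg hj)) hq
  have h3 := hk.conjugate_le_conjugate h
  have e1 : k * (ω * star ω) * k = ω * star ω := by
    have : star ω * k = star ω := by rw [← hk.star_eq, ← star_mul, hω]
    rw [← mul_assoc, hω, mul_assoc, this]
  have e2 : k * (t • (1 : E) + (i + j)) * k = t • (k * k) + (k * i * k + k * j * k) := by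
    simp only [mul_add, add_mul, mul_smul_comm, smul_mul_assoc, mul_one]
  have h4 : k * k ≤ 1 := by simpa [hk.star_eq] using star_mul_le_one hk1
  rw [e1, e2] at h3
  have h5 := q_le q (h3.trans (add_le_add_left (smul_le_smul_of_nonneg_left h4 ht0) _))
  rw [map_add, map_add, h2, map_mul q (k * i), map_mul q k, hiu Q q h1, q_rsmul, map_one] at h5
  simp only [mul_zero, zero_mul, add_zero] at h5
  have h6 := (norm_le_iff_le (q_nonneg q (mul_star_self_nonneg ω)) ht0).2 h5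
  rw [map_mul, map_star, CStarRing.norm_self_mul_star] at h6
  nlinarith [norm_nonneg (q ω)]

end Vale.Agent.P133
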