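import Vale.Agent.P133.Cone

/-! P133: consequences of proper infiniteness of one element. -/

namespace Vale.Agent.P133

open scoped Vale.Agent.P101.F

universe u

variable {E : Type u} [CStarAlgebra E]

theorem exists_small {ε : ℝ} (hε : 0 < ε) {K : ℝ} (hK : 0 ≤ K) : ∃ δ : ℝ, 0 < δ ∧ δ ≤ 1 ∧ δ * K ≤ ε :=
  ⟨min 1 (ε / (K + 1)), by positivity, min_le_left _ _, by
    have h1 : min 1 (ε / (K + 1)) ≤ ε / (K + 1) := min_le_right _ _
    rw [le_div_iff₀ (by positivity)] at h1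
    have : 0 < min 1 (ε / (K + 1)) := by positivity
    nlinarith⟩

theorem norm_conj_le (s a t : E) : ‖star s * a * t‖ ≤ ‖a‖ * (‖s‖ * ‖t‖) := by
  calc _ ≤ ‖star s‖ * ‖a‖ * ‖t‖ := norm_mul₃_le
    _ = _ := by rw [norm_star]; ring

/-- two almost orthogonal copies of `s1* B s1` and `s2* B s2` -/
theorem PI.copies {B : E} (h : PI B) (s1 s2 : E) {ε : ℝ} (hε : 0 < ε) :
    ∃ x y : E, ‖star x * B * x - star s1 * B * s1‖ ≤ ε ∧ ‖star y * B * y - star s2 * B * s2‖ ≤ ε ∧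
      ‖star x * B * y‖ ≤ ε := by
  obtain ⟨δ, h0, -, h1⟩ := exists_small hε (K := (‖s1‖ + ‖s2‖) ^ 2) (by positivity)
  obtain ⟨u, v, hu, hv, huv⟩ := h δ h0
  have n1 := norm_nonneg s1
  have n2 := norm_nonneg s2
  refine ⟨u * s1, v * s2, ?_, ?_, ?_⟩
  · have e : star (u * s1) * B * (u * s1) - star s1 * B * s1 = star s1 * (star u * B * u - B) * s1 := by
      rw [star_mul]; noncomm_ring
    rw [e]
    refine (norm_conj_le _ _ _).trans (le_trans ?_ h1)
    gcongr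
    nlinarith
  · have e : star (v * s2) * B * (v * s2) - star s2 * B * s2 = star s2 * (star v * B * v - B) * s2 := by
      rw [star_mul]; noncomm_ring
    rw [e]
    refine (norm_conj_le _ _ _).trans (le_trans ?_ h1)
    gcongr
    nlinarith
  · have e : star (u * s1) * B * (v * s2) = star s1 * (star u * B * v) * s2 := by
      rw [star_mul]; noncomm_ring
    rw [e]
    refine (norm_conj_le _ _ _).trans (le_trans ?_ h1)
    gcongr
    nlinarith

theorem PI.cone {B Y : E} (hB : IsSelfAdjoint B) (h : PI B) (hY : Y ∈ Cone B) :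
    ∀ ε : ℝ, 0 < ε → ∃ s, ‖star s * B * s - Y‖ ≤ ε := by
  induction hY using AddSubmonoid.closure_induction with
  | mem x hx =>
    obtain ⟨y, rfl⟩ := hx
    exact fun ε hε => ⟨star y, by simp [hε.le]⟩
  | zero => exact fun ε hε => ⟨0, by simp [hε.le]⟩
  | add Y1 Y2 _ _ hx hy =>
    intro ε hε
    obtain ⟨s1, h1⟩ := hx (ε / 6) (by positivity)
    obtain ⟨s2, h2⟩ := hy (ε / 6) (by positivity)
    obtain ⟨x, y, h3, h4, h5⟩ := h.copies s1 s2 (show 0 < ε / 6 by positivity)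
    refine ⟨x + y, ?_⟩
    have h6 : ‖star y * B * x‖ ≤ ε / 6 := by
      rw [← norm_star]
      simpa [star_mul, hB.star_eq, mul_assoc] using h5
    have e : star (x + y) * B * (x + y) - (Y1 + Y2) =
        (star x * B * x - star s1 * B * s1) + (star y * B * y - star s2 * B * s2) +
          (star s1 * B * s1 - Y1) + (star s2 * B * s2 - Y2) + star x * B * y + star y * B * x := by
      rw [star_add]; noncomm_ring
    rw [e]
    refine (norm_add_le_of_le (norm_add_le_of_le (norm_add_le_of_le (norm_add_le_of_le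
      (norm_add_le_of_le h3 h4) h1) h2) h5) h6).trans (by linarith)

/-- making an almost orthogonal pair orthogonal -/
theorem exactify (x y : E) {γ : ℝ} (hγ : 0 < γ) : ∃ x' y' : E, In x' x ∧ In (y - y') x ∧
    star x' * y' = 0 ∧ ‖x - x'‖ ^ 2 ≤ 2 * γ ∧ ‖y - y'‖ ^ 2 ≤ γ⁻¹ * ‖star x * y‖ ^ 2 := by
  have h0 := mul_star_self_nonneg x
  have hin : In (x * star x) x := (In.refl x).mul _
  refine ⟨rmp γ (2 * γ) (x * star x) * x, (1 - rmp 0 γ (x * star x)) * y,
    ((rmp_in hγ.le (by linarith) h0).trans hin).mul _, ?_, ?_, ?_, ?_⟩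
  · rw [sub_mul, one_mul, sub_sub_cancel]
    exact ((rmp_in le_rfl hγ h0).trans hin).mul _
  · have h1 := congrArg star (rmp_mul hγ le_rfl (show γ < 2 * γ by linarith) (x * star x))
    rw [star_mul, star_rmp, star_rmp] at h1
    rw [star_mul, star_rmp, mul_assoc, ← mul_assoc (rmp _ _ _), mul_sub, h1]
    simp
  · have h1 := norm_one_sub_rmp (show γ < 2 * γ by linarith) (by linarith) h0
    have e : (1 - rmp γ (2 * γ) (x * star x)) * (x * star x) * (1 - rmp γ (2 * γ) (x * star x)) =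
        (x - rmp γ (2 * γ) (x * star x) * x) * star (x - rmp γ (2 * γ) (x * star x) * x) := by
      rw [star_sub, star_mul, star_rmp]; noncomm_ring
    rwa [e, CStarRing.norm_self_mul_star, ← sq] at h1
  · rw [sub_mul, one_mul, sub_sub_cancel]
    have h1 : γ • (star (rmp 0 γ (x * star x)) * rmp 0 γ (x * star x)) ≤ star (star x) * star x := by
      rw [star_rmp, star_star]
      have h2 := smul_le_smul_of_nonneg_left
        ((mul_self_le (rmp_nonneg 0 γ _) (rmp_le_one 0 γ _)).trans (rmp_le hγ h0)) hγ.le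
      rwa [smul_smul, mul_inv_cancel₀ hγ.ne', one_smul] at h2
    have h3 := norm_mul_le_of_le hγ.le h1 y
    rwa [← div_eq_inv_mul, le_div_iff₀' hγ]

theorem le_of_close {Y x x' : E} (hY : IsSelfAdjoint Y) {δ M : ℝ} (hδ : δ ≤ 1)
    (h1 : ‖star x * x - Y‖ ≤ δ) (h2 : ‖x - x'‖ ≤ δ) (hM : ‖x‖ ≤ M) :
    Y ≤ star x' * x' + (δ * (2 * M + 2)) • (1 : E) := by
  refine le_add_of_norm_sub hY (IsSelfAdjoint.star_mul_self _) ?_
  have e : Y - star x' * x' = (star x * x - star x' * x') - (star x * x - Y) := by abel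
  rw [e]
  refine (norm_sub_le _ _).trans ?_
  have h3 := norm_sub_sq_le x x'
  have h4 : ‖x'‖ ≤ M + 1 := by
    have := norm_sub_norm_le x' x
    rw [norm_sub_rev] at this
    linarith
  have h5 : ‖x - x'‖ * (‖x‖ + ‖x'‖) ≤ δ * (M + (M + 1)) := by
    have := (norm_nonneg _).trans h2
    gcongr
  linarith

/-- domination by two orthogonal elements -/
theorem dom {b h : E} (hb : IsSelfAdjoint b) (hP : PI (b * b)) (hh : IsSelfAdjoint h) (H : Al h b) :
    ∃ ζ1 ζ2 : E, In ζ1 b ∧ In ζ2 b ∧ star ζ1 * ζ2 = 0 ∧ h ≤ star ζ1 * ζ1 + 1 ∧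
      h ≤ star ζ2 * ζ2 + 1 := by
  have hbb := hb.mul_self_nonneg
  have H' : Al h (b * b) := H.mono fun Q _ q hq => by
    rw [← q_star_mul_eq_zero, hb.star_eq, hq]
  obtain ⟨t, ht0, ht, Y, hY, h1⟩ := cone hh hbb H'
  have hYs : IsSelfAdjoint Y := by
    have := hh.of_ge h1
    have h2 : IsSelfAdjoint (t • (1 : E)) := (IsSelfAdjoint.all t).smul (IsSelfAdjoint.one E)
    simpa using this.sub h2
  obtain ⟨δ, hδ, hδ1, hδ2⟩ := exists_small (sub_pos.2 ht) (K := 2 * (‖Y‖ + 2) + 2) (by positivity)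
  obtain ⟨s, hs⟩ := hP.cone hbb.isSelfAdjoint hY (δ / 2) (by positivity)
  obtain ⟨x, y, hx, hy, hxy⟩ := hP.copies s s (show 0 < δ ^ 2 / 2 by positivity)
  have hd : δ ^ 2 / 2 ≤ δ / 2 := by nlinarith
  have key (z : E) (hz : ‖star z * (b * b) * z - star s * (b * b) * s‖ ≤ δ ^ 2 / 2) :
      ‖star (b * z) * (b * z) - Y‖ ≤ δ ∧ ‖b * z‖ ≤ ‖Y‖ + 2 := by
    have e : star (b * z) * (b * z) - Y =
        (star z * (b * b) * z - star s * (b * b) * s) + (star s * (b * b) * s - Y) := by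
      rw [star_mul, hb.star_eq]; noncomm_ring
    have h2 : ‖star (b * z) * (b * z) - Y‖ ≤ δ := by
      rw [e]
      exact (norm_add_le_of_le hz hs).trans (by linarith)
    refine ⟨h2, ?_⟩
    have h3 := norm_sub_norm_le (star (b * z) * (b * z)) Y
    rw [CStarRing.norm_star_mul_self] at h3
    nlinarith [norm_nonneg (b * z), norm_nonneg Y, sq_nonneg (‖b * z‖ - 1)]
  obtain ⟨x', y', i1, i2, ho, n1, n2⟩ := exactify (b * x) (b * y) (show 0 < δ ^ 2 / 2 by positivity)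
  have e : star (b * x) * (b * y) = star x * (b * b) * y := by
    rw [star_mul, hb.star_eq]; noncomm_ring
  have n1' : ‖b * x - x'‖ ≤ δ := by
    refine (sq_le_sq₀ (norm_nonneg _) hδ.le).1 (by linarith)
  have n2' : ‖b * y - y'‖ ≤ δ := by
    refine (sq_le_sq₀ (norm_nonneg _) hδ.le).1 (n2.trans ?_)
    rw [e, ← div_eq_inv_mul, div_le_iff₀ (by positivity)]
    have := pow_le_pow_left₀ (norm_nonneg _) hxy 2
    nlinarith [pow_pos hδ 4]
  have fin (z z' : E) (hz : ‖star z * (b * b) * z - star s * (b * b) * s‖ ≤ δ ^ 2 / 2)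
      (hz' : ‖b * z - z'‖ ≤ δ) : h ≤ star z' * z' + 1 := by
    have h3 := le_of_close hYs hδ1 (key z hz).1 hz' (key z hz).2
    refine h1.trans ((add_le_add_right h3 _).trans ?_)
    rw [add_left_comm, ← add_smul]
    refine add_le_add_right ?_ _
    simpa using smul_le_smul_of_nonneg_right
      (show t + δ * (2 * (‖Y‖ + 2) + 2) ≤ 1 by linarith) (zero_le_one' E)
  refine ⟨x', y', i1.trans ⟨x, rfl⟩, ?_, ho, fin x x' hx n1', fin y y' hy n2'⟩
  have := In.sub (⟨y, rfl⟩ : In (b * y) b) (i2.trans ⟨x, rfl⟩)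
  rwa [sub_sub_cancel] at this

/-- two levels detecting the reference -/
theorem Al.levels {r b c : E} (hb : IsSelfAdjoint b) (hc : IsSelfAdjoint c) (H : Al r b)
    (H' : Al r c) : ∃ G F : E, IsSelfAdjoint G ∧ IsSelfAdjoint F ∧ G * F = F ∧ Lt G b ∧ Lt G c ∧
      ∀ (Q : Type u) [CStarAlgebra Q] (q : E →⋆ₐ[ℂ] Q), ‖q F‖ < 1 → ‖q r‖ < 1 := by
  have sq {b : E} (hb : IsSelfAdjoint b) (H : Al r b) : ∃ t : ℝ, 0 ≤ t ∧ t < 1 ∧
      ∀ (Q : Type u) [CStarAlgebra Q] (q : E →⋆ₐ[ℂ] Q), q b = 0 → ‖q (star r * r)‖ ≤ t := by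
    have H' : Al r (b * b) := H.mono fun Q _ q hq => by
      rw [← q_star_mul_eq_zero, hb.star_eq, hq]
    obtain ⟨δ, t, h1, h2, h3, h4⟩ := H'.unif hb.mul_self_nonneg
    refine ⟨t, h2, h3, fun Q _ q hq => ?_⟩
    rw [map_mul, map_star, CStarRing.norm_star_mul_self, ← _root_.sq]
    exact h4 Q q (by simp [hq, h1.le])
  obtain ⟨t1, -, h1, h1'⟩ := sq hb H
  obtain ⟨t2, -, h2, h2'⟩ := sq hc H'
  have h3 : max t1 t2 < 1 := max_lt h1 h2
  have h4 : max t1 t2 < (1 + max t1 t2) / 2 := by linarith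
  have h5 : (1 + max t1 t2) / 2 < 1 := by linarith
  have hs := IsSelfAdjoint.star_mul_self r
  refine ⟨rmp (max t1 t2) ((1 + max t1 t2) / 2) (star r * r), rmp ((1 + max t1 t2) / 2) 1 (star r * r),
    rmp_sa _ _ _, rmp_sa _ _ _, rmp_mul h4 le_rfl h5 _,
    fun Q _ q hq => q_rmp_eq_zero q h4 hs ((h1' Q q hq).trans (le_max_left _ _)),
    fun Q _ q hq => q_rmp_eq_zero q h4 hs ((h2' Q q hq).trans (le_max_right _ _)), fun Q _ q hq => ?_⟩
  have := q_norm_lt_of_rmp q h5 one_pos (star_mul_self_nonneg r) hq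
  rw [map_mul, map_star, CStarRing.norm_star_mul_self] at this
  nlinarith [norm_nonneg (q r)]

theorem Lt.al {x c : E} (h : Lt x c) : Al x c := fun Q _ q hq => by simp [h Q q hq]

theorem Lt.smul {x c : E} (h : Lt x c) (t : ℝ) : Lt (t • x) c := fun Q _ q hq => by
  rw [q_rsmul, h Q q hq, smul_zero]

theorem level_le {G F ζ : E} (hF : IsSelfAdjoint F) (hGF : G * F = F)
    (h : (2 : ℝ) • G ≤ star ζ * ζ + 1) : (1 : ℝ) • (star F * F) ≤ star (ζ * F) * (ζ * F) := by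
  have h1 := hF.conjugate_le_conjugate h
  have e1 : F * (2 : ℝ) • G * F = F * F + F * F := by
    rw [mul_smul_comm, smul_mul_assoc, mul_assoc, hGF, two_smul]
  have e2 : F * (star ζ * ζ + 1) * F = star (ζ * F) * (ζ * F) + F * F := by
    rw [star_mul, hF.star_eq]; noncomm_ring
  rw [e1, e2] at h1
  rw [one_smul, hF.star_eq]
  exact le_of_add_le_add_right h1

/-- an orthogonal pair -/
theorem pair {b r : E} (hb : IsSelfAdjoint b) (hP : PI (b * b)) (H : Al r b) :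
    ∃ ω w : E, In ω b ∧ In w b ∧ star ω * w = 0 ∧ Lt ω w ∧
      ∀ (Q : Type u) [CStarAlgebra Q] (q : E →⋆ₐ[ℂ] Q), ‖q ω‖ < 1 → ‖q r‖ < 1 := by
  obtain ⟨G, F, hG, hF, hGF, h1, -, h2⟩ := H.levels hb hb H
  obtain ⟨ζ1, ζ2, i1, i2, ho, d1, d2⟩ :=
    dom hb hP ((IsSelfAdjoint.all (2 : ℝ)).smul hG) (h1.smul 2).al
  refine ⟨ζ1 * F, ζ2, i1.mul _, i2, by rw [star_mul, mul_assoc, ho, mul_zero], fun Q _ q hq => ?_,
    fun Q _ q hq => h2 Q q ?_⟩
  · have h3 := q_le q (level_le hF hGF d2)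
    rw [one_smul, map_mul q (star (ζ2 * F)), map_mul q ζ2, hq, zero_mul, mul_zero] at h3
    have h4 := (q_star_mul_eq_zero q).1 (le_antisymm h3 (q_nonneg q (star_mul_self_nonneg F)))
    rw [map_mul, h4, mul_zero]
  · have h3 := q_le q (level_le hF hGF d1)
    rw [q_rsmul, map_mul, map_star, map_mul, map_star] at h3
    have h4 := norm_sq_le_of_le zero_le_one h3
    nlinarith [norm_nonneg (q F), norm_nonneg (q (ζ1 * F))]

theorem twoTest {ξ1 ξ2 Z1 Z2 : E} {σ : ℝ} (hσ : 0 ≤ σ) (h1 : σ • (star ξ1 * ξ1) ≤ star Z1 * Z1)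
    (h2 : σ • (star ξ2 * ξ2) ≤ star Z2 * Z2) : σ * ‖ξ1 * star ξ2‖ ≤ ‖Z1 * star Z2‖ := by
  have h3 := norm_mul_le_of_le hσ h1 (star ξ2)
  have h4 := norm_mul_le_of_le hσ h2 (star Z1)
  have e1 : ‖Z1 * star ξ2‖ = ‖ξ2 * star Z1‖ := by rw [← norm_star, star_mul, star_star]
  have e2 : ‖Z1 * star Z2‖ = ‖Z2 * star Z1‖ := by rw [← norm_star, star_mul, star_star]
  rw [e1] at h3
  rw [e2]
  refine (sq_le_sq₀ (by positivity) (norm_nonneg _)).1 (le_trans ?_ h4)
  nlinarith [mul_le_mul_of_nonneg_left h3 hσ]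

/-- a single connecting element -/
theorem conn {b1 b2 r : E} (hb1 : IsSelfAdjoint b1) (hb2 : IsSelfAdjoint b2) (hP1 : PI (b1 * b1))
    (hP2 : PI (b2 * b2)) (H1 : Al r b1) (H2 : Al r b2) :
    ∃ ξ1 ξ2 : E, In ξ1 b1 ∧ In ξ2 b2 ∧ ‖ξ1‖ ≤ 1 ∧ ‖ξ2‖ ≤ 1 ∧
      ∀ (Q : Type u) [CStarAlgebra Q] (q : E →⋆ₐ[ℂ] Q), ‖q (ξ1 * star ξ2)‖ < 1 → ‖q r‖ < 1 := by
  obtain ⟨G, F, hG, hF, hGF, h1, h1', h2⟩ := H1.levels hb1 hb2 H2
  obtain ⟨ζ1, -, i1, -, -, d1, -⟩ := dom hb1 hP1 ((IsSelfAdjoint.all (2 : ℝ)).smul hG) (h1.smul 2).al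
  obtain ⟨ζ2, -, i2, -, -, d2, -⟩ := dom hb2 hP2 ((IsSelfAdjoint.all (2 : ℝ)).smul hG) (h1'.smul 2).al
  set W := ζ1 * F * star (ζ2 * F) with hW
  obtain ⟨φ, -, hφ, -⟩ := exists_nrm W one_pos
  have h0 := star_mul_self_nonneg W
  refine ⟨W * φ, rmp 0 1 (star W * W), ((i1.mul _).mul _).mul _, (rmp_in le_rfl one_pos h0).trans ?_,
    norm_le_one_of_star_mul (hφ ▸ rmp_le_one _ _ _), norm_rmp _ _ _, fun Q _ q hq => h2 Q q ?_⟩
  · rw [hW, star_mul, star_star]
    exact (((i2.mul _).mul _).mul _)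
  · set R := rmp 0 1 (star W * W) with hR
    have hRs : IsSelfAdjoint R := rmp_sa _ _ _
    have e : R * R * (R * R) = star (W * φ * star R) * (W * φ * star R) * R := by
      rw [star_mul (W * φ), star_star, mul_assoc R (star (W * φ)), ← mul_assoc (star (W * φ)), hφ,
        hRs.star_eq]
      noncomm_ring
    have h3 : ‖q R‖ < 1 := by
      have h4 := congrArg (fun z => ‖q z‖) e
      simp only [map_mul q (R * R), map_mul q R, map_mul q _ R, map_mul q (star _), map_star] at h4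
      have h5 : ‖q R * q R‖ = ‖q R‖ * ‖q R‖ := (q_sa q hRs).norm_mul_self.trans (sq _)
      have h6 : ‖q R * q R * (q R * q R)‖ = ‖q R * q R‖ * ‖q R * q R‖ :=
        (q_sa q hRs).mul_self_nonneg.isSelfAdjoint.norm_mul_self.trans (sq _)
      have h7 := norm_mul_le (star (q (W * φ * star R)) * q (W * φ * star R)) (q R)
      rw [← h4, h6, h5, CStarRing.norm_star_mul_self] at h7
      by_contra hc
      push Not at hc
      have h8 : ‖q (W * φ * star R)‖ * ‖q (W * φ * star R)‖ < 1 := by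
        nlinarith [norm_nonneg (q (W * φ * star R))]
      have h9 : ‖q R‖ ≤ ‖q R‖ * ‖q R‖ * (‖q R‖ * ‖q R‖) := by
        nlinarith [mul_le_mul hc hc zero_le_one (zero_le_one.trans hc)]
      nlinarith
    have h4 := q_norm_lt_of_rmp q one_pos one_pos h0 h3
    rw [map_mul, map_star, CStarRing.norm_star_mul_self] at h4
    have h5 := q_le q (level_le hF hGF d1)
    have h6 := q_le q (level_le hF hGF d2)
    rw [q_rsmul, map_mul, map_star, map_mul, map_star] at h5 h6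
    have h7 := twoTest zero_le_one h5 h6
    rw [one_mul, CStarRing.norm_self_mul_star, ← map_star, ← map_mul, ← hW] at h7
    have h8 : ‖q W‖ < 1 := by nlinarith [norm_nonneg (q W)]
    nlinarith [norm_nonneg (q F)]

theorem cuntz_below {x y : E} (hx : IsSelfAdjoint x) (hy : 0 ≤ y) {ε : ℝ} (hε : 0 < ε)
    (h : x * x ≤ y + ε • (1 : E)) :
    ∃ v : E, star v * y * v ≤ x * x ∧ ‖star v * y * v - x * x‖ ≤ ε := by
  have hp (t) (ht : t ∈ spectrum ℝ y) : 0 < t + ε :=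
    add_pos_of_nonneg_of_pos (spectrum_nonneg_of_nonneg hy ht) hε
  have hc : ContinuousOn (fun t : ℝ => (√(t + ε))⁻¹) (spectrum ℝ y) :=
    ContinuousOn.inv₀ (by fun_prop) fun t ht => (Real.sqrt_pos.2 (hp t ht)).ne'
  set φ := cfc (fun t : ℝ => (√(t + ε))⁻¹) y with hφ
  have hs : IsSelfAdjoint φ := cfc_predicate _ _
  have e : φ * (y + ε • (1 : E)) * φ = 1 := by
    have e1 : y + ε • (1 : E) = cfc (fun t : ℝ => t + ε) y := by
      rw [cfc_add_const _ _ _ (by fun_prop) hy.isSelfAdjoint, cfc_id' ℝ _ hy.isSelfAdjoint,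
        Algebra.algebraMap_eq_smul_one]
    rw [e1, hφ, ← cfc_mul _ _ _ hc (by fun_prop),
      ← cfc_mul (fun t : ℝ => (√(t + ε))⁻¹ * (t + ε)) _ _ (hc.mul (by fun_prop)) hc,
      ← cfc_const_one ℝ y hy.isSelfAdjoint]
    refine cfc_congr fun t ht => ?_
    have h1 := Real.sqrt_pos.2 (hp t ht)
    have h2 := Real.mul_self_sqrt (hp t ht).le
    field_simp
    nlinarith
  have h1 : ‖φ * x‖ ≤ 1 := by
    rw [← norm_star]
    refine norm_le_one_of_star_mul ?_
    have := hs.conjugate_le_conjugate h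
    rw [e] at this
    simpa [star_mul, hs.star_eq, hx.star_eq, mul_assoc] using this
  have e2 : star (φ * x) * y * (φ * x) - x * x = -(ε • (star (φ * x) * (φ * x))) := by
    have : x * x = x * (φ * (y + ε • (1 : E)) * φ) * x := by rw [e, mul_one]
    rw [this, star_mul, hs.star_eq, hx.star_eq]
    simp only [mul_add, add_mul, mul_smul_comm, smul_mul_assoc, mul_assoc, mul_one]
    abel
  refine ⟨φ * x, ?_, ?_⟩
  · rw [← sub_nonpos, e2, neg_nonpos]
    exact smul_nonneg hε.le (star_mul_self_nonneg _)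
  · rw [e2, norm_neg, norm_smul, Real.norm_of_nonneg hε.le, CStarRing.norm_star_mul_self]
    exact mul_le_of_le_one_right hε.le (mul_le_one₀ h1 (norm_nonneg _) h1)

end Vale.Agent.P133
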