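import Vale.Agent.P133.Step
import Vale.Agent.P133.Defs

/-! P133 (a): purely infinite C*-algebras are strongly purely infinite. -/

namespace Vale.Agent.P133

open scoped Matrix

universe u

variable {C : Type u} [NonUnitalCStarAlgebra C] [PartialOrder C] [StarOrderedRing C]

theorem exists_inr_mul (x : C) (r : Unitization ℂ C) :
    ∃ s : C, (s : Unitization ℂ C) = (x : Unitization ℂ C) * r := by
  induction r using Unitization.ind with
  | inl_add_inr c a =>
    exact ⟨c • x + x * a, by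
      rw [mul_add, Unitization.inr_mul_inl, Unitization.inr_add, Unitization.inr_mul]⟩

theorem hp_of_pi (h : PurelyInfinite C) (x : C) : HP (x : Unitization ℂ C) := by
  rintro c hc ⟨r, rfl⟩ ε hε
  obtain ⟨s, hs⟩ := exists_inr_mul x r
  rw [← hs] at hc ⊢
  obtain ⟨z, hz⟩ := h s (Unitization.inr_nonneg_iff.1 hc) ε hε
  refine ⟨(z 0 (.inl 0) : C), (z 0 (.inr 0) : C), ?_, ?_, ?_⟩
  · have := hz (.inl 0) (.inl 0)
    rw [← Unitization.norm_inr (𝕜 := ℂ)] at this
    simpa [Matrix.mul_apply] using this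
  · have := hz (.inr 0) (.inr 0)
    rw [← Unitization.norm_inr (𝕜 := ℂ)] at this
    simpa [Matrix.mul_apply] using this
  · have := hz (.inl 0) (.inr 0)
    rw [← Unitization.norm_inr (𝕜 := ℂ)] at this
    simpa [Matrix.mul_apply] using this

theorem spi_of_pi (h : PurelyInfinite C) : StronglyPurelyInfinite C := by
  intro x y hx hy ε hε
  obtain ⟨r, r', h1, h2, h3⟩ := unital_main (x := (x : Unitization ℂ C)) (y := (y : Unitization ℂ C))
    (hx.isSelfAdjoint.inr ℂ) (hy.isSelfAdjoint.inr ℂ)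
    (by rw [← Unitization.inr_mul]; exact hp_of_pi h _)
    (by rw [← Unitization.inr_mul]; exact hp_of_pi h _) (half_pos hε)
  obtain ⟨s, hs⟩ := exists_inr_mul x r
  obtain ⟨t, ht⟩ := exists_inr_mul y r'
  rw [← hs] at h1 h3
  rw [← ht] at h2 h3
  refine ⟨s, t, ?_, ?_, ?_⟩
  · rw [← Unitization.norm_inr (𝕜 := ℂ)]
    simpa using h1.trans_lt (half_lt_self hε)
  · rw [← Unitization.norm_inr (𝕜 := ℂ)]
    simpa using h2.trans_lt (half_lt_self hε)
  · rw [← Unitization.norm_inr (𝕜 := ℂ)]
    simpa using h3.trans_lt (half_lt_self hε)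

end Vale.Agent.P133
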