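import Vale.Agent.P133.Move

/-! P133: the mixing step. -/

namespace Vale.Agent.P133

open scoped Vale.Agent.P101.F

universe u

variable {E : Type u} [CStarAlgebra E]

/-- the constant of the mixing step -/
noncomputable def kap : ℝ := (1 / 200) ^ 8 / 60

theorem kap_pos : 0 < kap := by unfold kap; positivity

theorem nrm_bound {P η Γ φ : E} {μ : ℝ} (hμ : 0 < μ) (hφ : star φ = φ)
    (h1 : star (η * φ) * (η * φ) ≤ 1) (h2 : φ * φ ≤ μ⁻¹ • (1 : E))
    (hΓ : Γ + Γ ≤ star η * η + (6 * (μ / 60)) • (1 : E))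
    (hA : star (P * η) * (P * η) ≤ Γ + (3 * (μ / 60)) • (1 : E)) :
    P * (η * φ) * star (P * (η * φ)) ≤ (3 / 5 : ℝ) • (1 : E) := by
  have hs : IsSelfAdjoint φ := hφ
  have h3 : star (P * η) * (P * η) + star (P * η) * (P * η) ≤ star η * η + (μ / 5) • (1 : E) := by
    refine (add_le_add hA hA).trans ?_
    rw [add_add_add_comm]
    refine (add_le_add_left hΓ _).trans_eq ?_
    module
  have h4 := hs.conjugate_le_conjugate h3
  have e1 : φ * (star (P * η) * (P * η) + star (P * η) * (P * η)) * φ =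
      (2 : ℝ) • (star (P * (η * φ)) * (P * (η * φ))) := by
    simp only [star_mul, hφ, two_smul, mul_add, add_mul, mul_assoc]
  have e2 : φ * (star η * η + (μ / 5) • (1 : E)) * φ = star (η * φ) * (η * φ) + (μ / 5) • (φ * φ) := by
    simp only [star_mul, hφ, mul_add, add_mul, mul_assoc, mul_smul_comm, smul_mul_assoc, one_mul]
  rw [e1, e2] at h4
  have h5 := h4.trans (add_le_add h1 (smul_le_smul_of_nonneg_left h2 (by positivity)))
  have e3 : (1 : E) + (μ / 5) • μ⁻¹ • (1 : E) = (6 / 5 : ℝ) • (1 : E) := by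
    rw [smul_smul, show μ / 5 * μ⁻¹ = 1 / 5 by field_simp]; module
  rw [e3, ← norm_le_iff_le (smul_nonneg zero_le_two (star_mul_self_nonneg _)) (by norm_num),
    norm_smul, CStarRing.norm_star_mul_self, Real.norm_two] at h5
  rw [← norm_le_iff_le (mul_star_self_nonneg _) (by norm_num), CStarRing.norm_self_mul_star]
  linarith

theorem mix_test {P g c η d ξ : E} (hg : IsSelfAdjoint g) (hc : IsSelfAdjoint c)
    (hd : d ≤ (9 / 10 : ℝ)⁻¹ • (g * (1 - c) * star (g * (1 - c)) + η * star η))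
    (hη : P * η * star (P * η) ≤ (3 / 5 : ℝ) • (1 : E))
    (h : (9 / 10 : ℝ) • (star ξ * ξ) ≤ star ξ * (P * d * star P) * ξ) :
    (21 / 100 : ℝ) • (star ξ * ξ) ≤
      star ((1 - c) * star (P * g) * ξ) * ((1 - c) * star (P * g) * ξ) := by
  have h1 := star_left_conjugate_le_conjugate (star_right_conjugate_le_conjugate hd P) ξ
  have h2 := star_left_conjugate_le_conjugate hη ξ
  have hc' : star (1 - c) = 1 - c := by rw [star_sub, star_one, hc.star_eq]
  have e : star ξ * (P * (9 / 10 : ℝ)⁻¹ • (g * (1 - c) * star (g * (1 - c)) + η * star η) * star P) * ξ =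
      (9 / 10 : ℝ)⁻¹ • (star ((1 - c) * star (P * g) * ξ) * ((1 - c) * star (P * g) * ξ) +
        star ξ * (P * η * star (P * η)) * ξ) := by
    simp only [star_mul, star_star, hc', hg.star_eq, mul_smul_comm, smul_mul_assoc, mul_add, add_mul,
      mul_assoc]
  rw [e] at h1
  have h3 := smul_le_smul_of_nonneg_left (h.trans h1) (show (0 : ℝ) ≤ 9 / 10 by norm_num)
  rw [smul_smul, smul_smul, mul_inv_cancel₀ (by norm_num), one_smul] at h3
  rw [mul_smul_comm, smul_mul_assoc, mul_one] at h2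
  have h4 := h3.trans (add_le_add_right h2 _)
  rw [← sub_le_iff_le_add, ← sub_smul] at h4
  convert h4 using 2
  norm_num

/-- the mixing step -/
theorem mix {P1 P2 g ξ1 ξ2 : E} (hP : star P1 * P1 + star P2 * P2 ≤ 1) (hg : IsSelfAdjoint g)
    (hg1 : ‖g‖ ≤ 1) (h1 : ‖ξ1‖ ≤ 1) (h2 : ‖ξ2‖ ≤ 1) (hκ : ‖P1 * g * star (P2 * g)‖ ≤ kap) :
    ∃ d' d : E, IsSelfAdjoint d' ∧ 0 ≤ d ∧ In d g ∧ d' * d = d ∧ Al g d ∧
      ∀ (Q : Type u) [CStarAlgebra Q] (q : E →⋆ₐ[ℂ] Q),
        q ((9 / 10 : ℝ) • (star ξ1 * ξ1)) ≤ q (star ξ1 * (P1 * (d' * d') * star P1) * ξ1) →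
        q ((9 / 10 : ℝ) • (star ξ2 * ξ2)) ≤ q (star ξ2 * (P2 * (d' * d') * star P2) * ξ2) →
        ‖q (ξ1 * star ξ2)‖ < 1 := by
  obtain ⟨η, Γ, hin, hΓ0, hΓ, a1, a2, hX⟩ := mix_vec hP hg1 (norm_mul_one h1 (norm_star_one h2)) hκ
    (by unfold kap; norm_num)
  set X := star (P1 * g) * (ξ1 * star ξ2) * (P2 * g) with hXd
  have hμ : (0 : ℝ) < (1 / 200) ^ 8 := by positivity
  obtain ⟨φ, hφ, hn, hφ2⟩ := exists_nrm η hμ
  have hn1 : star (η * φ) * (η * φ) ≤ 1 := hn ▸ rmp_le_one _ _ _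
  have b1 := nrm_bound hμ hφ hn1 hφ2 hΓ a1
  have b2 := nrm_bound hμ hφ hn1 hφ2 hΓ a2
  have hX0 := mul_star_self_nonneg X
  set c := rmp (1 / 200) (1 / 100) (X * star X) with hc
  have hcs : IsSelfAdjoint c := rmp_sa _ _ _
  have hc' : star (1 - c) = 1 - c := by rw [star_sub, star_one, hcs.star_eq]
  set D := g * (1 - c) * star (g * (1 - c)) + η * φ * star (η * φ) with hD
  have hD0 : 0 ≤ D := add_nonneg (mul_star_self_nonneg _) (mul_star_self_nonneg _)
  have hDg : In D g := (((In.refl g).mul _).mul _).add ((hin.mul _).mul _)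
  have hd : rmp 0 (9 / 10) D * rmp 0 (9 / 10) D ≤ (9 / 10 : ℝ)⁻¹ • D :=
    (mul_self_le (rmp_nonneg _ _ _) (rmp_le_one _ _ _)).trans (rmp_le (by norm_num) hD0)
  refine ⟨rmp 0 (9 / 10) D, rmp (9 / 10) 1 D, rmp_sa _ _ _, rmp_nonneg _ _ _,
    (rmp_in (by norm_num) (by norm_num) hD0).trans hDg, rmp_mul (by norm_num) le_rfl (by norm_num) _,
    fun Q _ q hq => ?_, fun Q _ q t1 t2 => ?_⟩
  · have c1 : ‖q D‖ < 1 := q_norm_lt_of_rmp q (show (9 / 10 : ℝ) < 1 by norm_num) one_pos hD0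
      (by simp [hq])
    have c2 : ‖q (rmp 0 ((1 / 200) ^ 8) (star η * η))‖ < 1 := by
      rw [← hn, map_mul, map_star, CStarRing.norm_star_mul_self, ← CStarRing.norm_self_mul_star,
        ← map_star, ← map_mul]
      exact (CStarAlgebra.norm_le_norm_of_nonneg_of_le (q_nonneg q (mul_star_self_nonneg _))
        (q_le q (le_add_of_nonneg_left (mul_star_self_nonneg _)))).trans_lt c1
    have c3 := q_norm_lt_of_rmp q hμ hμ (star_mul_self_nonneg η) c2
    have c4 : ‖q Γ‖ ≤ ((1 / 200 : ℝ)) ^ 8 := by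
      have c5 := q_le q hΓ
      rw [map_add, map_add, q_rsmul, map_one, ← two_smul ℝ] at c5
      have c6 := c5.trans (add_le_add_left
        (le_norm_smul (q_sa q (IsSelfAdjoint.star_mul_self η)) c3.le) _)
      rw [← add_smul, ← norm_le_iff_le (smul_nonneg zero_le_two (q_nonneg q hΓ0))
        (by have := kap_pos; positivity), norm_smul, Real.norm_two] at c6
      unfold kap at c6
      linarith
    have c7 : q c = 0 := by
      refine q_rmp_eq_zero q (by norm_num) hX0.isSelfAdjoint ?_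
      rw [map_mul q X, map_star, CStarRing.norm_self_mul_star, ← sq]
      refine le_of_pow_le_pow_left₀ (show 8 ≠ 0 by norm_num) (by norm_num) ?_
      rw [← pow_mul]
      exact (hX Q q).trans c4
    have c8 := (CStarAlgebra.norm_le_norm_of_nonneg_of_le (q_nonneg q (mul_star_self_nonneg _))
        (q_le q (le_add_of_nonneg_right (mul_star_self_nonneg (η * φ))))).trans_lt c1
    rw [map_mul, map_star, CStarRing.norm_self_mul_star, map_mul, map_sub, c7, map_one, sub_zero,
      mul_one] at c8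
    nlinarith [norm_nonneg (q g)]
  · have hd' := q_le q hd
    have b1' := q_le q b1
    have b2' := q_le q b2
    rw [q_rsmul, hD] at hd'
    rw [q_rsmul, map_one] at b1' b2'
    rw [q_rsmul] at t1 t2
    simp only [map_mul q _ (star _), map_mul q _ ξ1, map_mul q _ ξ2, map_mul q (star _),
      map_mul q P1, map_mul q P2, map_add, map_star, map_mul q g, map_sub, map_one] at hd' b1' b2' t1 t2
    have s1 := mix_test (q_sa q hg) (q_sa q hcs) hd' b1' t1
    have s2 := mix_test (q_sa q hg) (q_sa q hcs) hd' b2' t2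
    have s3 := twoTest (by norm_num) s1 s2
    have e : (1 - q c) * star (q P1 * q g) * q ξ1 * star ((1 - q c) * star (q P2 * q g) * q ξ2) =
        q ((1 - c) * X * (1 - c)) := by
      simp only [hXd, map_mul, map_star, map_sub, map_one, star_mul, star_star, star_sub, star_one,
        (q_sa q hcs).star_eq, mul_assoc]
    have s4 : ‖(1 - c) * X‖ ≤ 1 / 10 := by
      have := norm_one_sub_rmp (show (1 / 200 : ℝ) < 1 / 100 by norm_num) (by norm_num) hX0
      have e' : (1 - c) * (X * star X) * (1 - c) = (1 - c) * X * star ((1 - c) * X) := by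
        rw [star_mul (1 - c), hc']; simp only [mul_assoc]
      rw [← hc, e', CStarRing.norm_self_mul_star] at this
      nlinarith [norm_nonneg ((1 - c) * X)]
    have s5 : ‖1 - c‖ ≤ 1 := (CStarAlgebra.norm_le_one_iff_of_nonneg _
      (sub_nonneg.2 (rmp_le_one _ _ _))).2 (sub_le_self _ (rmp_nonneg _ _ _))
    have s6 := ((q_norm q _).trans (norm_mul_right s5)).trans s4
    rw [e] at s3
    rw [map_mul, map_star]
    linarith

end Vale.Agent.P133
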