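import Vale.Agent.P133.Dom

/-! P133: the complement move and the mixing step. -/

namespace Vale.Agent.P133

open scoped Vale.Agent.P101.F

universe u

variable {E : Type u} [CStarAlgebra E]

theorem pos_conj_nonneg {m : E} (hm : IsSelfAdjoint m) : 0 ≤ m⁺ * m * m⁺ := by
  have h0 := CFC.posPart_nonneg m
  have e : m⁺ * m = m⁺ * m⁺ := by
    conv_lhs => rw [← CFC.posPart_sub_negPart m hm]
    rw [CFC.posPart_sub_negPart m hm]
    nth_rw 2 [← CFC.posPart_sub_negPart m hm]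
    rw [mul_sub, CFC.posPart_mul_negPart, sub_zero]
  rw [e]
  exact conjugate_nonneg_of_nonneg h0 h0

theorem mul_pos_eq {m : E} (hm : IsSelfAdjoint m) : m * m⁺ = m⁺ * m⁺ := by
  nth_rw 1 [← CFC.posPart_sub_negPart m hm]
  rw [sub_mul, CFC.negPart_mul_posPart, sub_zero]

theorem norm_le_of_sq {a b : E} {ρ : ℝ} (hρ : 0 ≤ ρ) (h : star a * a ≤ ρ ^ 2 • (star b * b)) (s : E) :
    ‖a * s‖ ≤ ρ * ‖b * s‖ := by
  have e : ρ ^ 2 • (star b * b) = star (ρ • b) * (ρ • b) := by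
    rw [star_smul, star_trivial ρ, smul_mul_smul_comm, sq]
  rw [e, ← one_smul ℝ (star a * a)] at h
  have := norm_mul_le_of_le zero_le_one h s
  rw [one_mul, smul_mul_assoc, norm_smul, Real.norm_of_nonneg hρ] at this
  exact (sq_le_sq₀ (norm_nonneg _) (by positivity)).1 this

/-- the complement move -/
theorem emove {f : E} (hf : IsSelfAdjoint f) (y : E) {ρ : ℝ} (hρ : 0 ≤ ρ) :
    ∃ r : E, (∀ s, ‖star y * (f * r * s)‖ ≤ ρ * ‖f * r * s‖) ∧
      ∀ (Q : Type u) [CStarAlgebra Q] (q : E →⋆ₐ[ℂ] Q), q (f * r) = 0 →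
        q (ρ ^ 2 • (f * f)) ≤ q (f * (y * star y) * f) := by
  set m := ρ ^ 2 • (f * f) - f * (y * star y) * f with hm
  have hs : IsSelfAdjoint m :=
    ((IsSelfAdjoint.all _).smul hf.mul_self_nonneg.isSelfAdjoint).sub
      (hf.conjugate_nonneg (mul_star_self_nonneg y)).isSelfAdjoint
  have hp := (CFC.posPart_nonneg m).star_eq
  refine ⟨m⁺, fun s => ?_, fun Q _ q hq => ?_⟩
  · rw [← mul_assoc]
    refine norm_le_of_sq hρ ?_ s
    have h := pos_conj_nonneg hs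
    rw [← sub_nonneg]
    refine le_of_le_of_eq h ?_
    simp only [star_mul, star_star, hp, hf.star_eq]
    nth_rw 2 [hm]
    simp only [mul_sub, sub_mul, mul_smul_comm, smul_mul_assoc, mul_assoc]
  · rw [← sub_nonpos, ← map_sub, ← hm, ← q_pos_eq_zero q hs, ← q_star_mul_eq_zero, hp,
      ← mul_pos_eq hs]
    nth_rw 1 [hm]
    have e : (ρ ^ 2 • (f * f) - f * (y * star y) * f) * m⁺ = (ρ ^ 2 • f - f * (y * star y)) * (f * m⁺) := by
      simp only [sub_mul, smul_mul_assoc, mul_assoc]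
    rw [e, map_mul, hq, mul_zero]

theorem norm_mul_one {a b : E} (ha : ‖a‖ ≤ 1) (hb : ‖b‖ ≤ 1) : ‖a * b‖ ≤ 1 :=
  (norm_mul_le _ _).trans (mul_le_one₀ ha (norm_nonneg _) hb)

theorem norm_star_one {a : E} (ha : ‖a‖ ≤ 1) : ‖star a‖ ≤ 1 := by rwa [norm_star]

theorem norm_mul_right {a b : E} (hb : ‖b‖ ≤ 1) : ‖a * b‖ ≤ ‖a‖ :=
  (norm_mul_le _ _).trans (mul_le_of_le_one_right (norm_nonneg _) hb)

theorem norm_mul_left {a b : E} (ha : ‖a‖ ≤ 1) : ‖a * b‖ ≤ ‖b‖ :=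
  (norm_mul_le _ _).trans (mul_le_of_le_one_left (norm_nonneg _) ha)

theorem norm_pow_four {U1 U2 W : E} (h1 : ‖U1‖ ≤ 1) (h2 : ‖U2‖ ≤ 1) (hW : ‖W‖ ≤ 1) :
    ‖star U1 * W * U2‖ ^ 4 ≤ ‖U1 * star U1 * W * (U2 * star U2)‖ := by
  have e1 : star (star U1 * W * U2) * (star U1 * W * U2) =
      star U2 * star W * (U1 * star U1 * W * U2) := by
    simp only [star_mul, star_star, mul_assoc]
  have e2 : (U1 * star U1 * W * U2) * star (U1 * star U1 * W * U2) =
      U1 * star U1 * W * (U2 * star U2) * (star W * (U1 * star U1)) := by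
    simp only [star_mul, star_star, mul_assoc]
  have n1 : ‖star U1 * W * U2‖ * ‖star U1 * W * U2‖ ≤ ‖U1 * star U1 * W * U2‖ := by
    rw [← CStarRing.norm_star_mul_self, e1]
    exact norm_mul_left (norm_mul_one (norm_star_one h2) (norm_star_one hW))
  have n2 : ‖U1 * star U1 * W * U2‖ * ‖U1 * star U1 * W * U2‖ ≤ ‖U1 * star U1 * W * (U2 * star U2)‖ := by
    rw [← CStarRing.norm_self_mul_star, e2]
    exact norm_mul_right (norm_mul_one (norm_star_one hW) (norm_mul_one h1 (norm_star_one h1)))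
  have := mul_self_le_mul_self (by positivity) n1
  nlinarith

theorem sq_pert {A e : E} {κ : ℝ} (hA : ‖A‖ ≤ 1) (he : ‖e‖ ≤ κ) (hκ : κ ≤ 1) :
    star (A + e) * (A + e) ≤ star A * A + (3 * κ) • (1 : E) ∧
      star A * A ≤ star (A + e) * (A + e) + (3 * κ) • (1 : E) := by
  have h1 := norm_sub_sq_le (A + e) A
  rw [add_sub_cancel_left] at h1
  have h2 := norm_add_le A e
  have h0 := norm_nonneg e
  have h3 : ‖e‖ * (‖A + e‖ + ‖A‖) ≤ κ * 3 := by
    have := h0.trans he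
    gcongr
    linarith
  refine ⟨le_add_of_norm_sub (.star_mul_self _) (.star_mul_self _) (by linarith),
    le_add_of_norm_sub (.star_mul_self _) (.star_mul_self _) (by rw [norm_sub_rev]; linarith)⟩

/-- the mixed vector -/
theorem mix_vec {P1 P2 g W : E} {κ : ℝ} (hP : star P1 * P1 + star P2 * P2 ≤ 1)
    (hg1 : ‖g‖ ≤ 1) (hW : ‖W‖ ≤ 1) (hκ : ‖P1 * g * star (P2 * g)‖ ≤ κ) (hκ1 : κ ≤ 1) :
    ∃ η Γ : E, In η g ∧ 0 ≤ Γ ∧ Γ + Γ ≤ star η * η + (6 * κ) • (1 : E) ∧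
      star (P1 * η) * (P1 * η) ≤ Γ + (3 * κ) • (1 : E) ∧
      star (P2 * η) * (P2 * η) ≤ Γ + (3 * κ) • (1 : E) ∧
      ∀ (Q : Type u) [CStarAlgebra Q] (q : E →⋆ₐ[ℂ] Q),
        ‖q (star (P1 * g) * W * (P2 * g))‖ ^ 16 ≤ ‖q Γ‖ := by
  have n1 : ‖P1‖ ≤ 1 := norm_le_one_of_star_mul
    ((le_add_of_nonneg_right (star_mul_self_nonneg P2)).trans hP)
  have n2 : ‖P2‖ ≤ 1 := norm_le_one_of_star_mul
    ((le_add_of_nonneg_left (star_mul_self_nonneg P1)).trans hP)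
  set U1 := P1 * g with hU1
  set U2 := P2 * g with hU2
  have u1 : ‖U1‖ ≤ 1 := norm_mul_one n1 hg1
  have u2 : ‖U2‖ ≤ 1 := norm_mul_one n2 hg1
  have v1 : ‖U1 * star U1‖ ≤ 1 := norm_mul_one u1 (norm_star_one u1)
  have v2 : ‖U2 * star U2‖ ≤ 1 := norm_mul_one u2 (norm_star_one u2)
  set Ω := U1 * star U1 * W * (U2 * star U2) with hΩ
  have o1 : ‖Ω‖ ≤ 1 := norm_mul_one (norm_mul_one v1 hW) v2
  have h0 := star_mul_self_nonneg Ω
  set R := CFC.sqrt (star Ω * Ω) with hR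
  have hR0 : 0 ≤ R := CFC.sqrt_nonneg _
  have hRR : R * R = star Ω * Ω := CFC.sqrt_mul_sqrt_self _ h0
  have r1 : ‖R‖ ≤ 1 := norm_le_one_of_star_mul (by rw [hR0.star_eq, hRR]; exact star_mul_le_one o1)
  set ω1 := W * (U2 * star U2) * R with hω1
  set ω2 := star W * (U1 * star U1) * Ω with hω2
  have w1 : ‖ω1‖ ≤ 1 := norm_mul_one (norm_mul_one hW v2) r1
  have w2 : ‖ω2‖ ≤ 1 := norm_mul_one (norm_mul_one (norm_star_one hW) v1) o1
  have k1 : ‖U1 * star U2 * ω2‖ ≤ κ := (norm_mul_right w2).trans hκ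
  have k2 : ‖U2 * star U1 * ω1‖ ≤ κ := by
    refine (norm_mul_right w1).trans ?_
    rwa [← norm_star, star_mul, star_star]
  have e1 : P1 * (g * (star U1 * ω1 + star U2 * ω2)) = Ω * R + U1 * star U2 * ω2 := by
    rw [← mul_assoc, ← hU1, hΩ, hω1]; noncomm_ring
  have e2 : P2 * (g * (star U1 * ω1 + star U2 * ω2)) = star Ω * Ω + U2 * star U1 * ω1 := by
    rw [← mul_assoc, ← hU2]
    nth_rw 1 [hΩ]
    rw [hω2]
    simp only [star_mul, star_star]
    noncomm_ring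
  have g1 : star (Ω * R) * (Ω * R) = star (star Ω * Ω) * (star Ω * Ω) := by
    rw [star_mul, hR0.star_eq, h0.star_eq, mul_assoc, ← mul_assoc (star Ω), ← hRR]
    noncomm_ring
  obtain ⟨a1, b1⟩ := sq_pert (norm_mul_one o1 r1) k1 hκ1
  obtain ⟨a2, b2⟩ := sq_pert (norm_mul_one (norm_star_one o1) o1) k2 hκ1
  rw [← e1, g1] at a1 b1
  rw [← e2] at a2 b2
  refine ⟨g * (star U1 * ω1 + star U2 * ω2), star (star Ω * Ω) * (star Ω * Ω), ⟨_, rfl⟩,
    star_mul_self_nonneg _, (add_le_add b1 b2).trans ?_, a1, a2, fun Q _ q => ?_⟩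
  · have h := star_left_conjugate_le_conjugate hP (g * (star U1 * ω1 + star U2 * ω2))
    rw [add_add_add_comm, ← add_smul, show 3 * κ + 3 * κ = 6 * κ by ring]
    refine add_le_add_left (le_of_eq_of_le ?_ (h.trans_eq (by rw [mul_one]))) _
    simp only [star_mul P1, star_mul P2, mul_add _ (star P1 * P1), add_mul _ _ (g * _), mul_assoc]
  · have := norm_pow_four ((q_norm q _).trans u1) ((q_norm q _).trans u2) ((q_norm q _).trans hW)
    have e3 : q Ω = q U1 * star (q U1) * q W * (q U2 * star (q U2)) := by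
      simp only [hΩ, map_mul, map_star]
    rw [map_mul q (star (star Ω * Ω)), map_star, CStarRing.norm_star_mul_self, map_mul q (star Ω),
      map_star, CStarRing.norm_star_mul_self, map_mul, map_mul, map_star, e3]
    calc _ = (‖star (q U1) * q W * q U2‖ ^ 4) ^ 4 := by ring
      _ ≤ ‖q U1 * star (q U1) * q W * (q U2 * star (q U2))‖ ^ 4 := by gcongr
      _ = _ := by ring

end Vale.Agent.P133
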