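import Vale.Agent.P133.Proj

/-! P133: the nested case. -/

namespace Vale.Agent.P133

open scoped Vale.Agent.P101.F

universe u

variable {E : Type u} [CStarAlgebra E]

theorem ang_of {f r x d' d : E} {ρ : ℝ} (hd : d' * d = d)
    (h : ∀ s, ‖star (x * d') * (f * r * s)‖ ≤ ρ * ‖f * r * s‖) :
    Ang (f * r * star (f * r)) x d ρ := fun s s' => by
  have e : star (f * r * star (f * r) * s) * x * (d * s') =
      star (star (x * d') * (f * r * (star (f * r) * s))) * (d * s') := by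
    rw [star_mul (star (x * d')), star_star]
    nth_rw 1 [← hd]
    simp only [mul_assoc]
  rw [e, mul_assoc (f * r)]
  refine (norm_mul_le _ _).trans ?_
  rw [norm_star]
  exact mul_le_mul_of_nonneg_right (h _) (norm_nonneg _)

theorem Lt.unif {b a : E} (ha : 0 ≤ a) (h : Lt b a) {ε : ℝ} (hε : 0 < ε) : ∃ δ : ℝ, 0 < δ ∧
    ∀ (Q : Type u) [CStarAlgebra Q] (q : E →⋆ₐ[ℂ] Q), ‖q a‖ ≤ δ → ‖q b‖ ≤ ε := by
  obtain ⟨δ, h1, h2⟩ := (h.smul ε⁻¹).al.unif' ha
  refine ⟨δ, h1, fun Q _ q hq => ?_⟩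
  have := h2 Q q hq
  rw [q_rsmul, norm_smul, Real.norm_of_nonneg (inv_nonneg.2 hε.le), ← div_eq_inv_mul,
    div_lt_one hε] at this
  exact this.le

theorem q_norm_le_of_rmp {Q : Type u} [CStarAlgebra Q] (q : E →⋆ₐ[ℂ] Q) {s t : ℝ} (h : s < t)
    (ht : 0 < t) {y : E} (hy : 0 ≤ y) (h1 : q (rmp s t y) = 0) : ‖q y‖ ≤ t :=
  (q_norm_lt_of_rmp q h ht hy (by simp [h1])).le

/-- the nested case -/
theorem nested {a b r : E} (x : E) {ρ : ℝ} (hρ : 0 < ρ) (ha : 0 ≤ a) (hb : 0 ≤ b) (hPa : HP a)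
    (hPb : HP b) (hl : Lt b a) (H : Al r b) :
    ∃ c d : E, 0 ≤ c ∧ 0 ≤ d ∧ In c a ∧ In d b ∧ Al r c ∧ Al r d ∧ Ang c x d ρ := by
  obtain ⟨δ, hδ, hH⟩ := H.unif' hb
  set y := rmp (δ / 4) (δ / 2) b with hy
  set k := rmp (δ / 2) (3 * δ / 4) b with hk
  set k0 := rmp (3 * δ / 4) δ b with hk0
  have yk : y * k = k := rmp_mul (by linarith) le_rfl (by linarith) b
  have kk : k * k0 = k0 := rmp_mul (by linarith) le_rfl (by linarith) b
  have hks : IsSelfAdjoint k := rmp_sa _ _ _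
  have kb : In k b := rmp_in (by linarith) (by linarith) hb
  have H0 : Al r k0 := fun Q _ q hq => hH Q q (q_norm_le_of_rmp q (by linarith) hδ hb hq)
  obtain ⟨ω, w, i1, i2, ho, hlw, hω⟩ :=
    pair (rmp_sa _ _ _) (hPb.sq (rmp_in (by linarith) (by linarith) hb) (rmp_sa _ _ _)) H0
  obtain ⟨γ, hγ, hG⟩ := hl.unif ha (show 0 < δ / 4 by positivity)
  set g := rmp 0 (γ / 3) a with hg
  set p := rmp (γ / 3) (2 * γ / 3) a with hp
  set g0 := rmp (2 * γ / 3) γ a with hg0
  have gp : g * p = p := rmp_mul (by linarith) le_rfl (by linarith) a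
  have pg : p * g0 = g0 := rmp_mul (by linarith) le_rfl (by linarith) a
  have hgs : IsSelfAdjoint g := rmp_sa _ _ _
  have yg : Lt y g0 := fun Q _ q hq => q_rmp_eq_zero q (by linarith) hb.isSelfAdjoint
    (hG Q q (q_norm_le_of_rmp q (by linarith) hγ ha hq))
  set m := ρ ^ 2 • (g * g) - g * (x * y * star x) * g with hm
  have hms : IsSelfAdjoint m := ((IsSelfAdjoint.all _).smul hgs.mul_self_nonneg.isSelfAdjoint).sub
    (hgs.conjugate_nonneg (star_right_conjugate_nonneg (rmp_nonneg _ _ _) x)).isSelfAdjoint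
  obtain ⟨B, _, π, hsurj, hπ, hfac⟩ := exists_univ m⁺
  have lp : Lt (π p) (π g0) := fun Q _ q hq => by
    have c1 : (q.comp π) y = 0 := yg Q (q.comp π) hq
    have c2 : (q.comp π) m⁺ = 0 := by simp [hπ]
    rw [q_pos_eq_zero _ hms, hm, map_sub, map_mul, map_mul, map_mul, map_mul, c1, q_rsmul] at c2
    simp only [mul_zero, zero_mul, sub_zero] at c2
    have c3 := le_antisymm c2 (smul_nonneg (sq_nonneg ρ) (q_nonneg _ hgs.mul_self_nonneg))
    have c4 := (smul_eq_zero.1 c3).resolve_left (by positivity)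
    nth_rw 1 [← hgs.star_eq] at c4
    rw [q_star_mul_eq_zero] at c4
    change (q.comp π) p = 0
    rw [← gp, map_mul, c4, zero_mul]
  obtain ⟨e0, he0, ee0, ge0, le0⟩ := proj (q_sa π hgs) (q_nonneg π (rmp_nonneg _ _ _))
    (q_sa π (rmp_sa _ _ _)) (by rw [← map_mul, gp]) (by rw [← map_mul, pg])
    (by
      rw [← map_mul]
      exact (hPa.sq (rmp_in (by linarith) (by linarith) ha) (rmp_sa _ _ _)).map π) lp
  have kω : k * ω = ω := i1.fix kk
  obtain ⟨e, r', hes, he1, pe, al1, an1, le1⟩ := o1 (k := π k) (ω := π ω) (w := π w) (π x)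
    (half_pos hρ) he0 ee0 (q_sa π hks) (by rw [← map_mul, kω]) (by rw [← map_mul, i2.fix kk])
    (by rw [← map_star, ← map_mul, ho, map_zero]) fun Q _ q hq => hlw Q (q.comp π) hq
  obtain ⟨r', rfl⟩ := hsurj r'
  obtain ⟨j, hj, hjm, al2⟩ := lift_alive hks (norm_rmp _ _ _) kω (mul_star_self_nonneg (k * r'))
    (CFC.posPart_nonneg m) fun Q _ q c1 c2 => by
      obtain ⟨q', hq'⟩ := hfac Q q c2
      rw [q_mul_star_eq_zero] at c1
      rw [← hq']
      exact al1 Q q' (by rw [← map_mul, hq', c1])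
  set U := k * r' * star (k * r') + k * j * k with hU
  have hU0 : 0 ≤ U := add_nonneg (mul_star_self_nonneg _) (hks.conjugate_nonneg hj)
  have Uk : In U k := (((In.refl k).mul _).mul _).add (((In.refl k).mul _).mul _)
  obtain ⟨β, hβ, al3⟩ := al2.unif' hU0
  set d' := rmp 0 (β / 2) U with hd'
  have hds : IsSelfAdjoint d' := rmp_sa _ _ _
  obtain ⟨r0, b1, b2⟩ := emove hgs (x * d') hρ.le
  refine ⟨g * r0 * star (g * r0), rmp (β / 2) β U, mul_star_self_nonneg _, rmp_nonneg _ _ _,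
    (((In.refl g).mul _).mul _).trans (rmp_in le_rfl (by linarith) ha),
    ((rmp_in (by linarith) (by linarith) hU0).trans Uk).trans kb, fun Q _ q hq => ?_,
    fun Q _ q hq => hω Q q (al3 Q q (q_norm_le_of_rmp q (by linarith) hβ hU0 hq)),
    ang_of (rmp_mul (by linarith) le_rfl (by linarith) _) b1⟩
  rw [q_mul_star_eq_zero] at hq
  have c1 := b2 Q q hq
  have dd : d' * d' ≤ y := le_of_fix (rmp_nonneg _ _ _) (rmp_le_one _ _ _)
    hds.mul_self_nonneg.isSelfAdjoint ((mul_self_le (rmp_nonneg _ _ _) (rmp_le_one _ _ _)).trans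
      (rmp_le_one _ _ _)) ((((rmp_in le_rfl (by linarith) hU0).trans Uk).mul _).fix yk)
  have c2 : g * (x * d' * star (x * d')) * g ≤ g * (x * y * star x) * g := by
    refine hgs.conjugate_le_conjugate (le_of_eq_of_le ?_ (star_right_conjugate_le_conjugate dd x))
    simp only [star_mul, hds.star_eq, mul_assoc]
  have c3 : q m⁺ = 0 := by
    rw [q_pos_eq_zero q hms, hm, map_sub, sub_nonpos]
    exact c1.trans (q_le q c2)
  obtain ⟨q', hq'⟩ := hfac Q q c3
  set D := rmp 0 (β / 2) (π (k * r' * star (k * r'))) with hD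
  have c4 : q d' = q' D := by
    rw [hd', hD, q_rmp q _ _ hU0.isSelfAdjoint, q_rmp q' _ _ (q_sa π (.mul_star_self _)), hq', hU,
      map_add, map_mul q (k * j), map_mul q k j, hjm Q q c3, mul_zero, zero_mul, add_zero]
  have c5 : ‖e * π x * D‖ ≤ ρ / 2 := by
    obtain ⟨s, hs⟩ : In D (π k * π r') := by
      refine (rmp_in le_rfl (by linarith) (q_nonneg π (mul_star_self_nonneg _))).trans ?_
      rw [map_mul, map_mul]
      exact (In.refl _).mul _
    have := an1 s
    rw [← hs] at this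
    exact this.trans (mul_le_of_le_one_right (by positivity) (norm_rmp _ _ _))
  have ge : π g * e = e := (In.of_fix pe).fix ge0
  have eg : e * π g = e := by simpa [hes.star_eq] using fix_right (q_sa π hgs) ge
  have c6 := (q_sa q' hes).conjugate_le_conjugate c1
  have e1 : q' e * q (ρ ^ 2 • (g * g)) * q' e = ρ ^ 2 • (star (q' e) * q' e) := by
    rw [q_rsmul, ← hq', mul_smul_comm, smul_mul_assoc, ← map_mul, ← map_mul, map_mul π,
      ← mul_assoc, eg, eg, map_mul, (q_sa q' hes).star_eq]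
  have e2 : q' e * q (g * (x * d' * star (x * d')) * g) * q' e =
      star (star (q' (e * π x * D))) * star (q' (e * π x * D)) := by
    have f1 : q' e * q g = q' e := by rw [← hq', ← map_mul, eg]
    have f2 : q g * q' e = q' e := by rw [← hq', ← map_mul, ge]
    simp only [map_mul, map_star, star_star, star_mul, c4, hq', (q_sa q' hes).star_eq, mul_assoc, f2]
    rw [← mul_assoc (q' e) (q g), f1]
  rw [e1, e2] at c6
  have c7 := norm_sq_le_of_le (sq_nonneg ρ) c6
  rw [norm_star] at c7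
  have c8 := pow_le_pow_left₀ (norm_nonneg _) ((q_norm q' _).trans c5) 2
  have c9 : ‖q' e‖ ^ 2 ≤ 1 / 4 := by
    refine le_of_mul_le_mul_left ?_ (show 0 < ρ ^ 2 by positivity)
    nlinarith
  have c10 := le0 Q q' (le1 Q q' (by nlinarith [norm_nonneg (q' e)]))
  rw [hq'] at c10
  refine H0 Q q ?_
  rw [← kk, ← yk, map_mul, map_mul, yg Q q c10, zero_mul, zero_mul]

end Vale.Agent.P133
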