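import Vale.Agent.P133.Mix

/-! P133: the projection case. -/

namespace Vale.Agent.P133

open scoped Vale.Agent.P101.F

universe u

variable {E : Type u} [CStarAlgebra E]

theorem exists_inv {B : E} {c : ℝ} (hc : 0 < c) (h : c • (1 : E) ≤ B) :
    ∃ B' : E, IsSelfAdjoint B' ∧ B * B' = 1 ∧ B' * B = 1 := by
  have h0 : (0 : E) ≤ c • (1 : E) := smul_nonneg hc.le zero_le_one
  have hu : IsUnit (c • (1 : E)) := by
    rw [← Algebra.algebraMap_eq_smul_one]
    exact (IsUnit.mk0 c hc.ne').map _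
  obtain ⟨U, rfl⟩ := CStarAlgebra.isUnit_of_le _ h ⟨h0, hu⟩
  have hs : IsSelfAdjoint (U : E) := (h0.trans h).isSelfAdjoint
  refine ⟨↑U⁻¹, ?_, U.mul_inv, U.inv_mul⟩
  have h1 : star (↑U⁻¹ : E) * U = 1 := by
    rw [← hs.star_eq, ← star_mul, U.mul_inv, star_one]
  calc star (↑U⁻¹ : E) = star (↑U⁻¹ : E) * U * ↑U⁻¹ := by rw [mul_assoc, U.mul_inv, mul_one]
    _ = _ := by rw [h1, one_mul]

theorem fix_right {f x : E} (hf : IsSelfAdjoint f) (h : f * x = x) : star x * f = star x := by
  rw [← hf.star_eq, ← star_mul, h]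

theorem eq_zero_of_fix {p x : E} (h : p * x = x) (hp : ‖p‖ < 1) : x = 0 := by
  have := norm_mul_le p x
  rw [h] at this
  exact norm_le_zero_iff.1 (by nlinarith [norm_nonneg x])

/-- a compact ideal contains a full projection -/
theorem proj {g p g0 : E} (hg : IsSelfAdjoint g) (hp : 0 ≤ p) (hg0 : IsSelfAdjoint g0)
    (h1 : g * p = p) (h2 : p * g0 = g0) (hP : PI (g0 * g0)) (hl : Lt p g0) :
    ∃ e : E, IsSelfAdjoint e ∧ e * e = e ∧ g * e = e ∧ Lt g0 e := by
  have hps := hp.isSelfAdjoint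
  obtain ⟨ζ1, ζ2, i1, i2, ho, d1, d2⟩ :=
    dom hg0 hP ((IsSelfAdjoint.all (4 : ℝ)).smul hps) (hl.smul 4).al
  have f1 : p * ζ1 = ζ1 := i1.fix h2
  have f2 : p * ζ2 = ζ2 := i2.fix h2
  have f1' := fix_right hps f1
  have f2' := fix_right hps f2
  have hpg : p * g = p := by simpa [hps.star_eq] using fix_right hg h1
  set v := ζ1 * p + (1 - p) with hv
  have sv : star v = p * star ζ1 + (1 - p) := by
    rw [hv, star_add, star_mul, star_sub, star_one, hps.star_eq]
  have eB : star v * v = p * (star ζ1 * ζ1) * p + (1 - p) * (1 - p) := by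
    have : star v * v = p * (star ζ1 * ζ1) * p + (1 - p) * (1 - p) + p * (star ζ1 - star ζ1 * p) +
        (ζ1 - p * ζ1) * p := by
      rw [sv, hv]; noncomm_ring
    rw [this, f1, f1']; simp
  have hB : (7 / 16 : ℝ) • (1 : E) ≤ star v * v := by
    have a1 := hps.conjugate_le_conjugate d1
    have s1 : IsSelfAdjoint ((2 : ℝ) • p - 1) := ((IsSelfAdjoint.all _).smul hps).sub (.one E)
    have s2 : IsSelfAdjoint ((2 : ℝ) • p - (3 / 4 : ℝ) • (1 : E)) :=
      ((IsSelfAdjoint.all _).smul hps).sub ((IsSelfAdjoint.all _).smul (.one E))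
    have a2 := add_nonneg (add_nonneg (s1.conjugate_nonneg hp) s2.mul_self_nonneg) (sub_nonneg.2 a1)
    rw [← sub_nonneg, eB]
    refine a2.trans_eq ?_
    simp only [mul_sub, sub_mul, mul_add, add_mul, mul_smul_comm, smul_mul_assoc, mul_one, one_mul,
      mul_assoc]
    module
  obtain ⟨B, hBs, hB1, hB2⟩ := exists_inv (by norm_num) hB
  have gz : g * ζ1 = ζ1 := by rw [← f1, ← mul_assoc, h1]
  have k1 : (1 - g) * v = 1 - g := by
    have : (1 - g) * v = 1 - g + (ζ1 - g * ζ1) * p - (p - g * p) := by rw [hv]; noncomm_ring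
    rw [this, gz, h1]; simp
  have k2 : (1 - g) * star v = 1 - g := by
    have : (1 - g) * star v = 1 - g + (p - g * p) * star ζ1 - (p - g * p) := by rw [sv]; noncomm_ring
    rw [this, h1]; simp
  have k3 : (1 - g) * B = 1 - g := by
    calc (1 - g) * B = (1 - g) * (star v * v) * B := by rw [← mul_assoc, k2, k1]
      _ = _ := by rw [mul_assoc, hB1, mul_one]
  refine ⟨1 - v * B * star v, (IsSelfAdjoint.one E).sub (hBs.conjugate v), ?_, ?_, fun Q _ q hq => ?_⟩
  · have : (1 - v * B * star v) * (1 - v * B * star v) =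
        1 - v * B * star v - v * B * star v + v * (B * (star v * v)) * B * star v := by noncomm_ring
    rw [this, hB2, mul_one]; abel
  · have : (1 - g) * (1 - v * B * star v) = 0 := by
      rw [mul_sub, mul_one, ← mul_assoc, ← mul_assoc, k1, k3, k2, sub_self]
    rw [sub_mul, one_mul, sub_eq_zero] at this
    exact this.symm
  · have k4 : star ζ2 * v = 0 := by
      have ho' : star ζ2 * ζ1 = 0 := by simpa using congrArg star ho
      rw [hv, mul_add, ← mul_assoc, ho', mul_sub, f2']; simp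
    have k5 : q (star ζ2) = 0 := by
      have : star ζ2 = star ζ2 * (1 - v * B * star v) := by
        rw [mul_sub, ← mul_assoc, ← mul_assoc, k4]; simp
      rw [this, map_mul, hq, mul_zero]
    have k6 := q_le q d2
    rw [map_add, map_mul, k5, zero_mul, zero_add, map_one, q_rsmul,
      ← CStarAlgebra.norm_le_one_iff_of_nonneg _ (smul_nonneg (by norm_num) (q_nonneg q hp)),
      norm_smul, Real.norm_of_nonneg (by norm_num)] at k6
    exact eq_zero_of_fix (p := q p) (by rw [← map_mul, h2]) (by linarith)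

theorem fix_pos {p m : E} (hp : IsSelfAdjoint p) (hm : IsSelfAdjoint m) (h : p * m = m) :
    p * m⁺ = m⁺ := by
  have h0 := CFC.posPart_nonneg m
  have h1 : (1 : ℝ) • (star m⁺ * m⁺) ≤ star m * m := by
    have e : m * m = m⁺ * m⁺ + m⁻ * m⁻ := by
      nth_rw 1 [← CFC.posPart_sub_negPart m hm]
      nth_rw 3 [← CFC.posPart_sub_negPart m hm]
      simp [mul_sub, sub_mul, CFC.posPart_mul_negPart, CFC.negPart_mul_posPart]
    rw [one_smul, h0.star_eq, hm.star_eq, e]
    exact le_add_of_nonneg_right (CFC.negPart_nonneg m).isSelfAdjoint.mul_self_nonneg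
  have h2 := norm_mul_le_of_le zero_le_one h1 (1 - p)
  have h3 : m * p = m := by simpa [hm.star_eq] using fix_right hp h
  rw [mul_sub m, h3, mul_one, sub_self, norm_zero, one_mul] at h2
  have h4 : m⁺ * (1 - p) = 0 := norm_le_zero_iff.1 (by nlinarith [norm_nonneg (m⁺ * (1 - p))])
  have h5 := congrArg star h4
  rw [star_mul, star_sub, star_one, hp.star_eq, h0.star_eq, star_zero, sub_mul, one_mul,
    sub_eq_zero] at h5
  exact h5.symm

theorem o1_claim {p k ω w x : E} {ρ δ : ℝ} (hρ : 0 < ρ) (hδ : 0 < δ)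
    (hpp : p * p = p) (hk : IsSelfAdjoint k) (h1 : k * ω = ω) (h2 : k * w = w) (ho : star ω * w = 0)
    (a1 : δ • p ≤ p * x * ω * star (p * x * ω))
    (a2 : ρ ^ 2 • (k * k) ≤ k * (star x * p * x) * k) : w = 0 := by
  set S := p * x * ω with hS
  have pS : p * S = S := by rw [hS, ← mul_assoc, ← mul_assoc, hpp]
  have hB : δ • (1 : E) ≤ S * star S + δ • (1 - p) := by
    rw [smul_sub, ← add_sub_assoc, le_sub_iff_add_le, add_comm]
    exact add_le_add_left a1 _
  obtain ⟨B, hBs, hB1, hB2⟩ := exists_inv hδ hB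
  have c1 : (1 - p) * (S * star S + δ • (1 - p)) = δ • (1 - p) := by
    rw [mul_add, ← mul_assoc, sub_mul, pS, one_mul, sub_self, zero_mul, zero_add, mul_smul_comm,
      mul_sub, sub_mul, sub_mul, hpp]
    simp
  have c2 : δ • (1 - p) * B = 1 - p := by rw [← c1, mul_assoc, hB1, mul_one]
  have c3 : S * star S * B * p = p := by
    have : S * star S * B = 1 - δ • (1 - p) * B := by
      rw [eq_sub_iff_add_eq, ← add_mul, hB1]
    rw [this, c2, sub_sub_cancel, hpp]
  set v := ω * (star S * B * (p * x * w)) - w with hv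
  have c4 : p * x * v = 0 := by
    have : p * x * v = S * star S * B * p * (x * w) - p * x * w := by
      rw [hv, hS]; noncomm_ring
    rw [this, c3, mul_assoc, sub_self]
  have c5 : k * v = v := by rw [hv, mul_sub, ← mul_assoc, h1, h2]
  have c6 := star_left_conjugate_le_conjugate a2 v
  have e1 : star v * ρ ^ 2 • (k * k) * v = ρ ^ 2 • (star v * v) := by
    rw [mul_smul_comm, smul_mul_assoc, ← mul_assoc, fix_right hk c5, fix_right hk c5]
  have e2 : star v * (k * (star x * p * x) * k) * v = 0 := by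
    have : star v * (k * (star x * p * x) * k) * v = star v * k * star x * (p * x * (k * v)) := by
      noncomm_ring
    rw [this, c5, c4, mul_zero]
  rw [e1, e2] at c6
  have c7 : star v * v = 0 := by
    have := le_antisymm c6 (smul_nonneg (sq_nonneg ρ) (star_mul_self_nonneg v))
    exact (smul_eq_zero.1 this).resolve_left (by positivity)
  rw [CStarRing.star_mul_self_eq_zero_iff, hv, sub_eq_zero] at c7
  have ho' : star w * ω = 0 := by simpa using congrArg star ho
  rw [← CStarRing.star_mul_self_eq_zero_iff]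
  nth_rw 2 [← c7]
  rw [← mul_assoc, ho', zero_mul]

/-- the projection case -/
theorem o1 {p k ω w : E} (x : E) {ρ : ℝ} (hρ : 0 < ρ) (hp : IsSelfAdjoint p)
    (hpp : p * p = p) (hk : IsSelfAdjoint k) (h1 : k * ω = ω) (h2 : k * w = w) (ho : star ω * w = 0)
    (hl : Lt ω w) : ∃ e r : E, IsSelfAdjoint e ∧ ‖e‖ ≤ 1 ∧ p * e = e ∧ Al ω (k * r) ∧
      (∀ s, ‖e * x * (k * r * s)‖ ≤ ρ * ‖k * r * s‖) ∧
      ∀ (Q : Type u) [CStarAlgebra Q] (q : E →⋆ₐ[ℂ] Q), ‖q e‖ < 1 → q p = 0 := by
  have hδ : 0 < ρ ^ 2 / 2 := by positivity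
  have hp0 : 0 ≤ p := hpp ▸ hp.mul_self_nonneg
  have hp1 : ‖p‖ ≤ 1 := IsStarProjection.norm_le p ⟨hpp, hp⟩
  set P := (ρ ^ 2 / 2) • p - p * x * ω * star (p * x * ω) with hP
  set n := ρ ^ 2 • (k * k) - k * (star x * p * x) * k with hn
  have hPs : IsSelfAdjoint P := ((IsSelfAdjoint.all _).smul hp).sub (.mul_star_self _)
  have hns : IsSelfAdjoint n := ((IsSelfAdjoint.all _).smul hk.mul_self_nonneg.isSelfAdjoint).sub
    (hk.conjugate_nonneg (star_left_conjugate_nonneg hp0 x)).isSelfAdjoint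
  have hP0 := CFC.posPart_nonneg P
  obtain ⟨j, hj, hjn, hal⟩ := lift_alive hp hp1 hpp hP0 (CFC.posPart_nonneg n) fun Q _ q c1 c2 => by
    rw [q_pos_eq_zero q hPs, hP, map_sub, sub_nonpos] at c1
    rw [q_pos_eq_zero q hns, hn, map_sub, sub_nonpos] at c2
    have c3 : q w = 0 := by
      refine o1_claim (p := q p) (x := q x) (ω := q ω) hρ hδ (by rw [← map_mul, hpp]) (q_sa q hk)
        (by rw [← map_mul, h1]) (by rw [← map_mul, h2]) (by rw [← map_star, ← map_mul, ho, map_zero])
        ?_ ?_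
      · simpa only [q_rsmul, map_mul, map_star] using c1
      · simpa only [q_rsmul, map_mul, map_star] using c2
    rw [map_mul q (p * x * ω), map_mul q _ ω, hl Q q c3, mul_zero, zero_mul, q_rsmul] at c1
    have c4 := le_antisymm c1 (smul_nonneg hδ.le (q_nonneg q hp0))
    rw [(smul_eq_zero.1 c4).resolve_left hδ.ne']
    simp
  set U := P⁺ + p * j * p with hU
  have hU0 : 0 ≤ U := add_nonneg hP0 (hp.conjugate_nonneg hj)
  have pP : p * P = P := by
    rw [hP, mul_sub, mul_smul_comm, hpp]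
    simp only [← mul_assoc, hpp]
  have pU : p * U = U := by
    rw [hU, mul_add, fix_pos hp hPs pP]
    simp only [← mul_assoc, hpp]
  obtain ⟨δ, hδ', hal'⟩ := hal.unif' hU0
  set e := rmp 0 δ U with he
  have hes : IsSelfAdjoint e := rmp_sa _ _ _
  have pe : p * e = e := (rmp_in le_rfl hδ' hU0).fix pU
  obtain ⟨r, b1, b2⟩ := emove hk (star x * e) hρ.le
  refine ⟨e, r, hes, norm_rmp _ _ _, pe, fun Q _ q hq => ?_, fun s => ?_, fun Q _ q hq => ?_⟩
  · have c1 := b2 Q q hq
    have ee : e * e ≤ p := le_of_fix hp0 (IsStarProjection.le_one ⟨hpp, hp⟩)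
      hes.mul_self_nonneg.isSelfAdjoint ((mul_self_le (rmp_nonneg _ _ _) (rmp_le_one _ _ _)).trans
        (rmp_le_one _ _ _)) (by rw [← mul_assoc, pe])
    have c2 : k * (star x * e * star (star x * e)) * k ≤ k * (star x * p * x) * k := by
      refine hk.conjugate_le_conjugate (le_of_eq_of_le ?_ (star_left_conjugate_le_conjugate ee x))
      simp only [star_mul, star_star, hes.star_eq, mul_assoc]
    have c3 : q j = 0 := hjn Q q (by
      rw [q_pos_eq_zero q hns, hn, map_sub, sub_nonpos]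
      exact c1.trans (q_le q c2))
    have c4 : In (q e) (q P)⁺ := by
      rw [he, q_rmp q _ _ hU0.isSelfAdjoint, hU, map_add, map_mul, map_mul, c3, mul_zero, zero_mul,
        add_zero, q_pos q hPs]
      exact rmp_in le_rfl hδ' (CFC.posPart_nonneg _)
    obtain ⟨s, hs⟩ := c4
    have c5 := star_left_conjugate_nonneg (pos_conj_nonneg (q_sa q hPs)) s
    have e1 : star s * ((q P)⁺ * q P * (q P)⁺) * s = q (e * P * e) := by
      rw [map_mul, map_mul]
      nth_rw 1 [← (q_sa q hes).star_eq]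
      rw [hs, star_mul, (CFC.posPart_nonneg (q P)).star_eq]
      simp only [mul_assoc]
    have ep : e * p = e := by simpa [hes.star_eq] using fix_right hp pe
    have e2 : e * P * e = (ρ ^ 2 / 2) • (e * e) - e * x * ω * star (e * x * ω) := by
      rw [hP, mul_sub, sub_mul, mul_smul_comm, smul_mul_assoc, ep]
      simp only [star_mul, hes.star_eq, hp.star_eq, mul_assoc, pe]
      rw [← mul_assoc e p, ep]
    rw [e1, e2, map_sub, sub_nonneg] at c5
    have c6 := c5.trans (q_le q (smul_le_smul_of_nonneg_left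
      (ee.trans (IsStarProjection.le_one ⟨hpp, hp⟩)) hδ.le))
    rw [q_rsmul, map_one, ← norm_le_iff_le (q_nonneg q (mul_star_self_nonneg _)) hδ.le,
      map_mul, map_star, CStarRing.norm_self_mul_star] at c6
    have c7 := star_left_conjugate_le_conjugate c1 (q ω)
    have e3 : star (q ω) * q (ρ ^ 2 • (k * k)) * q ω = ρ ^ 2 • (star (q ω) * q ω) := by
      rw [← map_star, ← map_mul, ← map_mul, mul_smul_comm, smul_mul_assoc, ← mul_assoc,
        fix_right hk h1, fix_right hk h1, q_rsmul, map_mul]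
    have e4 : star (q ω) * q (k * (star x * e * star (star x * e)) * k) * q ω =
        star (q (e * x * ω)) * q (e * x * ω) := by
      rw [← map_star, ← map_mul, ← map_mul, ← map_star, ← map_mul]
      congr 1
      simp only [star_mul, star_star, hes.star_eq, mul_assoc, h1]
      rw [← mul_assoc (star ω) k, fix_right hk h1]
    rw [e3, e4] at c7
    have c8 := norm_sq_le_of_le (sq_nonneg ρ) c7
    have c9 : ‖q ω‖ ^ 2 ≤ 1 / 2 := by
      refine le_of_mul_le_mul_left ?_ (show 0 < ρ ^ 2 by positivity)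
      nlinarith
    nlinarith [norm_nonneg (q ω)]
  · simpa only [star_mul, star_star, hes.star_eq] using b1 s
  · have := hal' Q q (q_norm_lt_of_rmp q hδ' hδ' hU0 hq).le
    exact eq_zero_of_fix (p := q p) (by rw [← map_mul, hpp]) this

end Vale.Agent.P133
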