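import Vale.Agent.P133.Basic

/-! P133: ramp functions and small order lemmas. -/

namespace Vale.Agent.P133

open scoped Vale.Agent.P101.F

universe u

variable {E : Type u} [CStarAlgebra E]

@[fun_prop] theorem ramp_cont (s t : ℝ) : Continuous (ramp s t) := by
  unfold ramp; fun_prop

theorem ramp_nonneg (s t u : ℝ) : 0 ≤ ramp s t u := le_max_left _ _

theorem ramp_le_one (s t u : ℝ) : ramp s t u ≤ 1 := max_le zero_le_one (min_le_left _ _)

theorem ramp_left {s t u : ℝ} (h : s < t) (hu : u ≤ s) : ramp s t u = 0 :=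
  max_eq_left ((min_le_right _ _).trans (div_nonpos_of_nonpos_of_nonneg (by linarith) (by linarith)))

theorem ramp_right {s t u : ℝ} (h : s < t) (hu : t ≤ u) : ramp s t u = 1 := by
  unfold ramp
  rw [min_eq_left ((one_le_div (by linarith)).2 (by linarith)), max_eq_right zero_le_one]

theorem ramp_zero {t u : ℝ} (h : 0 < t) (hu : 0 ≤ u) : ramp 0 t u = u * (max u t)⁻¹ := by
  rcases le_total u t with h1 | h1
  · unfold ramp
    rw [max_eq_right h1, sub_zero, sub_zero, min_eq_right ((div_le_one h).2 h1),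
      max_eq_right (div_nonneg hu h.le), div_eq_mul_inv]
  · rw [ramp_right h h1, max_eq_left h1, mul_inv_cancel₀ (by linarith)]

theorem rmp_nonneg (s t : ℝ) (y : E) : 0 ≤ rmp s t y := cfc_nonneg fun u _ => ramp_nonneg s t u

theorem rmp_le_one (s t : ℝ) (y : E) : rmp s t y ≤ 1 := cfc_le_one _ _ fun u _ => ramp_le_one s t u

theorem rmp_sa (s t : ℝ) (y : E) : IsSelfAdjoint (rmp s t y) := (rmp_nonneg s t y).isSelfAdjoint

theorem star_rmp (s t : ℝ) (y : E) : star (rmp s t y) = rmp s t y := (rmp_sa s t y).star_eq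

theorem norm_rmp (s t : ℝ) (y : E) : ‖rmp s t y‖ ≤ 1 :=
  (CStarAlgebra.norm_le_one_iff_of_nonneg _ (rmp_nonneg s t y)).2 (rmp_le_one s t y)

theorem rmp_mul {s t t' u : ℝ} (h : s < t) (h' : t ≤ t') (h'' : t' < u) (y : E) :
    rmp s t y * rmp t' u y = rmp t' u y := by
  unfold rmp
  rw [← cfc_mul _ _ _ (by fun_prop) (by fun_prop)]
  refine cfc_congr fun v _ => ?_
  rcases le_total v t with h1 | h1
  · simp [ramp_left h'' (h1.trans h')]
  · simp [ramp_right h h1]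

theorem q_cfc {Q : Type u} [CStarAlgebra Q] (q : E →⋆ₐ[ℂ] Q) (f : ℝ → ℝ) (hf : Continuous f)
    {y : E} (hy : IsSelfAdjoint y) : q (cfc f y) = cfc f (q y) :=
  StarAlgHomClass.map_cfc q f y hf.continuousOn (q_cont q) hy (q_sa q hy)

theorem q_rmp {Q : Type u} [CStarAlgebra Q] (q : E →⋆ₐ[ℂ] Q) (s t : ℝ) {y : E}
    (hy : IsSelfAdjoint y) : q (rmp s t y) = rmp s t (q y) := q_cfc q _ (ramp_cont s t) hy

theorem q_pos {Q : Type u} [CStarAlgebra Q] (q : E →⋆ₐ[ℂ] Q) {y : E}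
    (hy : IsSelfAdjoint y) : q (y⁺) = (q y)⁺ := by
  rw [CFC.posPart_def, CFC.posPart_def]
  exact NonUnitalStarAlgHomClass.map_cfcₙ q _ y (by fun_prop) (by simp) (q_cont q) hy (q_sa q hy)

theorem q_pos_eq_zero {Q : Type u} [CStarAlgebra Q] (q : E →⋆ₐ[ℂ] Q) {y : E}
    (hy : IsSelfAdjoint y) : q (y⁺) = 0 ↔ q y ≤ 0 := by
  rw [q_pos q hy, CFC.posPart_eq_zero_iff _ (q_sa q hy)]

theorem rmp_eq_zero {s t : ℝ} (h : s < t) {y : E} (hy : ‖y‖ ≤ s) : rmp s t y = 0 := by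
  unfold rmp
  rw [← cfc_zero ℝ y]
  refine cfc_congr fun v hv => ?_
  cases subsingleton_or_nontrivial E
  · simp at hv
  exact ramp_left h ((le_abs_self v).trans ((spectrum.norm_le_norm_of_mem hv).trans hy))

theorem norm_lt_of_rmp {s t : ℝ} (h : s < t) (ht : 0 < t) {y : E} (hy : 0 ≤ y)
    (h1 : ‖rmp s t y‖ < 1) : ‖y‖ < t := by
  cases subsingleton_or_nontrivial E
  · rwa [Subsingleton.elim y 0, norm_zero]
  by_contra hc
  push Not at hc
  have := norm_apply_le_norm_cfc (ramp s t) y (CStarAlgebra.norm_mem_spectrum_of_nonneg hy)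
    (by fun_prop) hy.isSelfAdjoint
  rw [ramp_right h hc, norm_one] at this
  exact absurd h1 (not_lt.2 this)

theorem q_norm_lt_of_rmp {Q : Type u} [CStarAlgebra Q] (q : E →⋆ₐ[ℂ] Q) {s t : ℝ} (h : s < t)
    (ht : 0 < t) {y : E} (hy : 0 ≤ y) (h1 : ‖q (rmp s t y)‖ < 1) : ‖q y‖ < t :=
  norm_lt_of_rmp h ht (q_nonneg q hy) (by rwa [← q_rmp q s t hy.isSelfAdjoint])

theorem q_rmp_eq_zero {Q : Type u} [CStarAlgebra Q] (q : E →⋆ₐ[ℂ] Q) {s t : ℝ} (h : s < t)
    {y : E} (hy : IsSelfAdjoint y) (h1 : ‖q y‖ ≤ s) : q (rmp s t y) = 0 := by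
  rw [q_rmp q s t hy, rmp_eq_zero h h1]

theorem inv_max_cont {t : ℝ} (ht : 0 < t) : Continuous fun u : ℝ => (max u t)⁻¹ :=
  Continuous.inv₀ (by fun_prop) fun u => (ht.trans_le (le_max_right _ _)).ne'

theorem rmp_zero_eq {t : ℝ} (ht : 0 < t) {y : E} (hy : 0 ≤ y) :
    rmp 0 t y = y * cfc (fun u : ℝ => (max u t)⁻¹) y := by
  have e := cfc_mul (fun u : ℝ => u) _ y (by fun_prop) (inv_max_cont ht).continuousOn
  rw [cfc_id' ℝ _ hy.isSelfAdjoint] at e
  rw [← e]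
  exact cfc_congr fun v hv => ramp_zero ht (spectrum_nonneg_of_nonneg hy hv)

theorem rmp_in {s t : ℝ} (hs : 0 ≤ s) (h : s < t) {y : E} (hy : 0 ≤ y) : In (rmp s t y) y := by
  rcases hs.eq_or_lt with rfl | hs
  · exact ⟨_, rmp_zero_eq h hy⟩
  · rw [← rmp_mul hs le_rfl h]
    exact In.mul ⟨_, rmp_zero_eq hs hy⟩ _

theorem rmp_le {t : ℝ} (ht : 0 < t) {y : E} (hy : 0 ≤ y) : rmp 0 t y ≤ t⁻¹ • y := by
  have e : t⁻¹ • y = cfc (fun u : ℝ => t⁻¹ * u) y := by
    rw [cfc_const_mul _ _ _ (by fun_prop), cfc_id' ℝ _ hy.isSelfAdjoint]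
  rw [e]
  refine cfc_mono fun v hv => ?_
  have hv0 := spectrum_nonneg_of_nonneg hy hv
  rw [ramp_zero ht hv0, mul_comm]
  exact mul_le_mul_of_nonneg_right (inv_anti₀ ht (le_max_right _ _)) hv0

theorem norm_one_sub_rmp {s t : ℝ} (h : s < t) (ht : 0 ≤ t) {y : E} (hy : 0 ≤ y) :
    ‖(1 - rmp s t y) * y * (1 - rmp s t y)‖ ≤ t := by
  have e1 : 1 - rmp s t y = cfc (fun u => 1 - ramp s t u) y := by
    rw [cfc_sub _ _ _ (by fun_prop) (by fun_prop), cfc_const_one ℝ y hy.isSelfAdjoint]; rfl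
  have e := cfc_mul (fun u => 1 - ramp s t u) (fun u : ℝ => u) y (by fun_prop) (by fun_prop)
  rw [cfc_id' ℝ _ hy.isSelfAdjoint] at e
  rw [e1, ← e, ← cfc_mul _ _ _ (by fun_prop) (by fun_prop)]
  refine norm_cfc_le ht fun v hv => ?_
  have hv0 := spectrum_nonneg_of_nonneg hy hv
  have h0 := ramp_nonneg s t v
  have h1 := ramp_le_one s t v
  rw [Real.norm_of_nonneg (by have := sub_nonneg.2 h1; positivity)]
  rcases le_total v t with h2 | h2
  · have : (1 - ramp s t v) * (1 - ramp s t v) ≤ 1 := by nlinarith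
    nlinarith
  · simp [ramp_right h h2, ht]

theorem exists_nrm (η : E) {μ : ℝ} (hμ : 0 < μ) :
    ∃ φ : E, star φ = φ ∧ star (η * φ) * (η * φ) = rmp 0 μ (star η * η) ∧
      φ * φ ≤ μ⁻¹ • (1 : E) := by
  have h0 := star_mul_self_nonneg η
  set y := star η * η with hy
  have hc : Continuous fun u : ℝ => √((max u μ)⁻¹) := (inv_max_cont hμ).sqrt
  have hs : star (cfc (fun u : ℝ => √((max u μ)⁻¹)) y) = _ := IsSelfAdjoint.star_eq (cfc_predicate _ _)
  have hsq (u : ℝ) : √((max u μ)⁻¹) * √((max u μ)⁻¹) = (max u μ)⁻¹ :=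
    Real.mul_self_sqrt (inv_nonneg.2 (hμ.le.trans (le_max_right _ _)))
  refine ⟨_, hs, ?_, ?_⟩
  · have e := cfc_mul (fun u : ℝ => √((max u μ)⁻¹)) (fun u : ℝ => u) y hc.continuousOn (by fun_prop)
    rw [cfc_id' ℝ _ h0.isSelfAdjoint] at e
    rw [star_mul, hs, mul_assoc, ← mul_assoc (star η), ← hy, ← mul_assoc, ← e,
      ← cfc_mul (fun u : ℝ => √((max u μ)⁻¹) * u) _ _ (hc.mul continuous_id).continuousOn
        hc.continuousOn]
    refine cfc_congr fun v hv => ?_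
    rw [ramp_zero hμ (spectrum_nonneg_of_nonneg h0 hv)]
    rw [mul_right_comm, hsq, mul_comm]
  · rw [← cfc_mul _ _ _ hc.continuousOn hc.continuousOn, ← Algebra.algebraMap_eq_smul_one]
    refine cfc_le_algebraMap _ _ _ (fun v _ => ?_) (hc.mul hc).continuousOn h0.isSelfAdjoint
    rw [hsq]
    exact inv_anti₀ hμ (le_max_right _ _)

theorem norm_le_iff_le {a : E} (ha : 0 ≤ a) {t : ℝ} (ht : 0 ≤ t) : ‖a‖ ≤ t ↔ a ≤ t • (1 : E) := by
  rw [CStarAlgebra.norm_le_iff_le_algebraMap a ht ha, Algebra.algebraMap_eq_smul_one]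

theorem le_norm_smul {a : E} (ha : IsSelfAdjoint a) {t : ℝ} (ht : ‖a‖ ≤ t) : a ≤ t • (1 : E) := by
  have := ha.le_algebraMap_norm_self
  rw [Algebra.algebraMap_eq_smul_one] at this
  exact this.trans (smul_le_smul_of_nonneg_right ht zero_le_one)

theorem star_mul_le_one {a : E} (ha : ‖a‖ ≤ 1) : star a * a ≤ 1 := by
  refine (CStarAlgebra.norm_le_one_iff_of_nonneg _ (star_mul_self_nonneg a)).1 ?_
  rw [CStarRing.norm_star_mul_self]
  exact mul_le_one₀ ha (norm_nonneg _) ha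

theorem mul_star_le_one {a : E} (ha : ‖a‖ ≤ 1) : a * star a ≤ 1 := by
  simpa using star_mul_le_one (a := star a) (by rwa [norm_star])

theorem norm_le_one_of_star_mul {a : E} (ha : star a * a ≤ 1) : ‖a‖ ≤ 1 := by
  have := (CStarAlgebra.norm_le_one_iff_of_nonneg _ (star_mul_self_nonneg a)).2 ha
  rw [CStarRing.norm_star_mul_self] at this
  nlinarith [norm_nonneg a]

theorem norm_one_le : ‖(1 : E)‖ ≤ 1 := norm_le_one_of_star_mul (by simp)

theorem mul_self_le {u : E} (h0 : 0 ≤ u) (h1 : u ≤ 1) : u * u ≤ u := by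
  have := CStarAlgebra.pow_antitone h0 h1 (show 1 ≤ 2 by norm_num)
  simpa [sq] using this

theorem le_of_fix {u d : E} (hu0 : 0 ≤ u) (hu1 : u ≤ 1) (hd : IsSelfAdjoint d) (hd1 : d ≤ 1)
    (h : u * d = d) : d ≤ u := by
  have h' : d * u = d := by
    have := congrArg star h
    rwa [star_mul, hd.star_eq, hu0.star_eq] at this
  have := hu0.isSelfAdjoint.conjugate_le_conjugate hd1
  rw [h, h', mul_one] at this
  exact this.trans (mul_self_le hu0 hu1)

/-- comparison of `a* a` and `b* b` compares norms of products -/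
theorem norm_mul_le_of_le {a b : E} {σ : ℝ} (hσ : 0 ≤ σ) (h : σ • (star a * a) ≤ star b * b) (y : E) :
    σ * ‖a * y‖ ^ 2 ≤ ‖b * y‖ ^ 2 := by
  have h1 := star_left_conjugate_le_conjugate h y
  have e1 : star y * σ • (star a * a) * y = σ • (star (a * y) * (a * y)) := by
    simp only [star_mul, mul_assoc, mul_smul_comm, smul_mul_assoc]
  have e2 : star y * (star b * b) * y = star (b * y) * (b * y) := by
    simp only [star_mul, mul_assoc]
  rw [e1, e2] at h1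
  have h2 := CStarAlgebra.norm_le_norm_of_nonneg_of_le (smul_nonneg hσ (star_mul_self_nonneg _)) h1
  rwa [norm_smul, Real.norm_of_nonneg hσ, CStarRing.norm_star_mul_self, CStarRing.norm_star_mul_self,
    ← sq, ← sq] at h2

theorem norm_sq_le_of_le {a b : E} {σ : ℝ} (hσ : 0 ≤ σ) (h : σ • (star a * a) ≤ star b * b) :
    σ * ‖a‖ ^ 2 ≤ ‖b‖ ^ 2 := by
  simpa using norm_mul_le_of_le hσ h 1

theorem eq_zero_of_add_eq_zero {a b : E} (ha : 0 ≤ a) (hb : 0 ≤ b) (h : a + b = 0) : a = 0 ∧ b = 0 :=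
  (add_eq_zero_iff_of_nonneg ha hb).1 h

/-- `‖a* a - b* b‖` is controlled by `‖a - b‖` -/
theorem norm_sub_sq_le (a b : E) : ‖star a * a - star b * b‖ ≤ ‖a - b‖ * (‖a‖ + ‖b‖) := by
  have e : star a * a - star b * b = star (a - b) * a + star b * (a - b) := by
    rw [star_sub]; noncomm_ring
  rw [e]
  refine (norm_add_le _ _).trans ?_
  have h1 := norm_mul_le (star (a - b)) a
  have h2 := norm_mul_le (star b) (a - b)
  rw [norm_star] at h1 h2
  nlinarith

theorem le_add_of_norm_sub {a b : E} (ha : IsSelfAdjoint a) (hb : IsSelfAdjoint b) {t : ℝ}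
    (h : ‖a - b‖ ≤ t) : a ≤ b + t • (1 : E) :=
  sub_le_iff_le_add'.1 (le_norm_smul (ha.sub hb) h)

end Vale.Agent.P133
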