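import Vale.Agent.P133.Nest

/-! P133: the general step, its iteration, and the unital form of the theorem. -/

namespace Vale.Agent.P133

open scoped Vale.Agent.P101.F

universe u

variable {E : Type u} [CStarAlgebra E]

theorem orth_sq_le {c d : E} (hc0 : 0 ≤ c) (hc1 : c ≤ 1) (hd0 : 0 ≤ d) (hd1 : d ≤ 1)
    (h : c * d = 0) : c * c + d * d ≤ 1 := by
  have h' : d * c = 0 := by simpa [hc0.star_eq, hd0.star_eq] using congrArg star h
  have h1 : c ≤ 1 - d := le_of_fix (sub_nonneg.2 hd1) (sub_le_self _ hd0) hc0.isSelfAdjoint hc1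
    (by rw [sub_mul, h', one_mul, sub_zero])
  exact (add_le_add (mul_self_le hc0 hc1) (mul_self_le hd0 hd1)).trans (le_sub_iff_add_le.1 h1)

theorem step_test {Q : Type u} [CStarAlgebra Q] (q : E →⋆ₐ[ℂ] Q) {f x d c ξ : E}
    (hf : IsSelfAdjoint f) (hc : IsSelfAdjoint c) (hd : IsSelfAdjoint d) (h1 : f * ξ = ξ)
    (h2 : c * ξ = ξ)
    (h : q ((19 / 20 : ℝ) ^ 2 • (f * f)) ≤ q (f * (x * d * star (x * d)) * f)) :
    q ((9 / 10 : ℝ) • (star ξ * ξ)) ≤ q (star ξ * (c * x * (d * d) * star (c * x)) * ξ) := by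
  have h3 := star_left_conjugate_le_conjugate h (q ξ)
  rw [← map_star, ← map_mul, ← map_mul, ← map_mul, ← map_mul] at h3
  have e1 : star ξ * (19 / 20 : ℝ) ^ 2 • (f * f) * ξ = (19 / 20 : ℝ) ^ 2 • (star ξ * ξ) := by
    rw [mul_smul_comm, smul_mul_assoc, ← mul_assoc, fix_right hf h1, fix_right hf h1]
  have e2 : star ξ * (f * (x * d * star (x * d)) * f) * ξ =
      star ξ * (c * x * (d * d) * star (c * x)) * ξ := by
    simp only [star_mul, hd.star_eq, hc.star_eq, mul_assoc, h1, h2]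
    rw [← mul_assoc (star ξ) f, fix_right hf h1, ← mul_assoc (star ξ) c, fix_right hc h2]
  rw [e1, e2] at h3
  exact (q_le q (smul_le_smul_of_nonneg_right (by norm_num) (star_mul_self_nonneg ξ))).trans h3

/-- the general step for a contraction -/
theorem step_one {f a g x r : E} (hf : IsSelfAdjoint f) (ha : IsSelfAdjoint a) (hfa : f * a = a)
    (hP : HP f) (H : Al r a) (hg : IsSelfAdjoint g) (hg1 : ‖g‖ ≤ 1) (hx : ‖x‖ ≤ 1) :
    ∃ c d : E, 0 ≤ c ∧ 0 ≤ d ∧ In c f ∧ In d g ∧ Al r c ∧ Al g d ∧ Ang c x d (19 / 20) := by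
  have af : In a f := In.of_fix hfa
  obtain ⟨ω, w, i1, i2, ho, hl, hω⟩ := pair ha (hP.sq af ha) H
  have l1 : Lt (ω * star ω) (w * star w) := fun Q _ q hq => by
    rw [q_mul_star_eq_zero] at hq ⊢
    exact hl Q q hq
  obtain ⟨c1, c2, p1, p2, j1, j2, a1, a2, han⟩ := nested (r := r) (x * (g * g) * star x) kap_pos
    (mul_star_self_nonneg w) (mul_star_self_nonneg ω) (hP.mono ((i2.mul _).trans af))
    (hP.mono ((i1.mul _).trans af)) l1 fun Q _ q hq => hω Q q (by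
      rw [q_mul_star_eq_zero] at hq
      simp [hq])
  obtain ⟨δ1, hδ1, b1⟩ := a1.unif' p1
  obtain ⟨δ2, hδ2, b2⟩ := a2.unif' p2
  have k1 : In (rmp 0 (δ1 / 2) c1) c1 := rmp_in le_rfl (by linarith) p1
  have k2 : In (rmp 0 (δ2 / 2) c2) c2 := rmp_in le_rfl (by linarith) p2
  have k1' : In (rmp (δ1 / 2) δ1 c1) a :=
    ((rmp_in (by linarith) (by linarith) p1).trans j1).trans (i2.mul _)
  have k2' : In (rmp (δ2 / 2) δ2 c2) a :=
    ((rmp_in (by linarith) (by linarith) p2).trans j2).trans (i1.mul _)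
  obtain ⟨ξ1, ξ2, m1, m2, n1, n2, hξ⟩ := conn (r := r) (rmp_sa (δ1 / 2) δ1 c1) (rmp_sa (δ2 / 2) δ2 c2)
    (hP.sq (k1'.trans af) (rmp_sa _ _ _)) (hP.sq (k2'.trans af) (rmp_sa _ _ _))
    (fun Q _ q hq => b1 Q q (q_norm_le_of_rmp q (by linarith) hδ1 p1 hq))
    (fun Q _ q hq => b2 Q q (q_norm_le_of_rmp q (by linarith) hδ2 p2 hq))
  set u1 := rmp 0 (δ1 / 2) c1 with hu1
  set u2 := rmp 0 (δ2 / 2) c2 with hu2
  have s1 : IsSelfAdjoint u1 := rmp_sa _ _ _
  have s2 : IsSelfAdjoint u2 := rmp_sa _ _ _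
  have o12 : u1 * u2 = 0 := by
    obtain ⟨t1, e1⟩ := (k1.trans j1).trans ((In.refl w).mul _)
    obtain ⟨t2, e2⟩ := (k2.trans j2).trans ((In.refl ω).mul _)
    have ho' : star w * ω = 0 := by simpa using congrArg star ho
    rw [← s1.star_eq, e1, e2, star_mul, mul_assoc, ← mul_assoc (star w), ho', zero_mul, mul_zero]
  obtain ⟨d', d, hd', hd0, hdg, hdd, ald, hq'⟩ := mix (P1 := u1 * x) (P2 := u2 * x)
    (by
      have h1 := star_left_conjugate_le_conjugate
        (orth_sq_le (rmp_nonneg _ _ _) (rmp_le_one _ _ _) (rmp_nonneg _ _ _) (rmp_le_one _ _ _) o12) x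
      rw [mul_one] at h1
      refine le_of_eq_of_le ?_ (h1.trans (star_mul_le_one hx))
      simp only [star_mul, mul_add, add_mul, mul_assoc, hu1, hu2, star_rmp])
    hg hg1 n1 n2 (by
      have h1 := han.apply k1 k2
      have e : u1 * x * g * star (u2 * x * g) = star u1 * (x * (g * g) * star x) * u2 := by
        simp only [star_mul, s1.star_eq, s2.star_eq, hg.star_eq, mul_assoc]
      rw [e]
      refine h1.trans ?_
      rw [mul_assoc]
      exact mul_le_of_le_one_right kap_pos.le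
        (mul_le_one₀ (norm_rmp _ _ _) (norm_nonneg _) (norm_rmp _ _ _)))
  obtain ⟨r0, e1, e2⟩ := emove hf (x * d') (show (0 : ℝ) ≤ 19 / 20 by norm_num)
  refine ⟨f * r0 * star (f * r0), d, mul_star_self_nonneg _, hd0, ((In.refl f).mul _).mul _, hdg,
    fun Q _ q hq => hξ Q q ?_, ald, ang_of hdd e1⟩
  rw [q_mul_star_eq_zero] at hq
  exact hq' Q q
    (step_test q hf s1 hd' ((m1.trans k1').fix hfa)
      (m1.fix (rmp_mul (by linarith) le_rfl (by linarith) _)) (e2 Q q hq))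
    (step_test q hf s2 hd' ((m2.trans k2').fix hfa)
      (m2.fix (rmp_mul (by linarith) le_rfl (by linarith) _)) (e2 Q q hq))

/-- the general step -/
theorem step {a b x ra rb : E} {t : ℝ} (ht : 0 < t) (ha : 0 ≤ a) (hb : 0 ≤ b) (hP : HP a)
    (Ha : Al ra a) (Hb : Al rb b) (han : Ang a x b t) :
    ∃ c d : E, 0 ≤ c ∧ 0 ≤ d ∧ In c a ∧ In d b ∧ Al ra c ∧ Al rb d ∧ Ang c x d (19 / 20 * t) := by
  obtain ⟨δ, hδ, h1⟩ := Ha.unif' ha
  obtain ⟨γ, hγ, h2⟩ := Hb.unif' hb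
  set f' := rmp 0 (δ / 3) a with hf'
  set f := rmp (δ / 3) (2 * δ / 3) a with hf
  set g' := rmp 0 (γ / 2) b with hg'
  set g := rmp (γ / 2) γ b with hg
  have ff : f' * f = f := rmp_mul (by linarith) le_rfl (by linarith) a
  have gg : g' * g = g := rmp_mul (by linarith) le_rfl (by linarith) b
  have fa : In f a := rmp_in (by linarith) (by linarith) ha
  have hx : ‖t⁻¹ • (f' * x * g')‖ ≤ 1 := by
    have := han.apply (c := f') (d := g') (rmp_in le_rfl (by linarith) ha) (rmp_in le_rfl (by linarith) hb)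
    rw [star_rmp, mul_assoc t] at this
    rw [norm_smul, Real.norm_of_nonneg (inv_nonneg.2 ht.le), ← div_eq_inv_mul, div_le_one ht]
    exact this.trans (mul_le_of_le_one_right ht.le
      (mul_le_one₀ (norm_rmp _ _ _) (norm_nonneg _) (norm_rmp _ _ _)))
  obtain ⟨c, d, c0, d0, cf, dg, alc, ald, an⟩ := step_one (f := f) (a := rmp (2 * δ / 3) δ a) (g := g)
    (r := ra) (rmp_sa _ _ _) (rmp_sa _ _ _) (rmp_mul (by linarith) le_rfl (by linarith) a) (hP.mono fa)
    (fun Q _ q hq => h1 Q q (q_norm_le_of_rmp q (by linarith) hδ ha hq)) (rmp_sa _ _ _)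
    (norm_rmp _ _ _) hx
  refine ⟨c, d, c0, d0, cf.trans fa, dg.trans (rmp_in (by linarith) (by linarith) hb), alc,
    fun Q _ q hq => h2 Q q (q_norm_lt_of_rmp q (by linarith) hγ hb (ald Q q hq)).le, fun s s' => ?_⟩
  have e1 : star (c * s) * f' = star (c * s) := fix_right (rmp_sa _ _ _) ((cf.mul _).fix ff)
  have e2 : g' * (d * s') = d * s' := (dg.mul _).fix gg
  have e : star (c * s) * x * (d * s') = t • (star (c * s) * t⁻¹ • (f' * x * g') * (d * s')) := by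
    rw [mul_smul_comm, smul_mul_assoc, smul_smul, mul_inv_cancel₀ ht.ne', one_smul,
      ← mul_assoc (star (c * s)), ← mul_assoc (star (c * s)), e1, mul_assoc _ g', e2]
  rw [e, norm_smul, Real.norm_of_nonneg ht.le]
  refine (mul_le_mul_of_nonneg_left (an s s') ht.le).trans_eq ?_
  ring

theorem iterate {a b x ra rb : E} (ha : 0 ≤ a) (hb : 0 ≤ b) (hP : HP a)
    (Ha : Al ra a) (Hb : Al rb b) (n : ℕ) :
    ∃ c d : E, 0 ≤ c ∧ 0 ≤ d ∧ In c a ∧ In d b ∧ Al ra c ∧ Al rb d ∧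
      Ang c x d ((19 / 20) ^ n * (‖x‖ + 1)) := by
  induction n with
  | zero =>
    refine ⟨a, b, ha, hb, .refl a, .refl b, Ha, Hb, fun s s' => (norm_conj_le _ _ _).trans ?_⟩
    rw [pow_zero, one_mul, mul_assoc (‖x‖ + 1)]
    gcongr
    linarith
  | succ n ih =>
    obtain ⟨c, d, c0, d0, ca, db, alc, ald, an⟩ := ih
    obtain ⟨c', d', c0', d0', ca', db', alc', ald', an'⟩ :=
      step (by positivity) c0 d0 (hP.mono ca) alc ald an
    refine ⟨c', d', c0', d0', ca'.trans ca, db'.trans db, alc', ald', ?_⟩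
    rwa [pow_succ', mul_assoc]

theorem realize {x c : E} (hx : IsSelfAdjoint x) (hc : 0 ≤ c) (hP : PI (c * c)) {ε : ℝ} (hε : 0 < ε)
    (H : Al (ε⁻¹ • (x * x)) c) : ∃ ξ : E, In ξ c ∧ ‖ξ‖ ≤ ‖x‖ ∧ ‖star ξ * ξ - x * x‖ ≤ ε := by
  obtain ⟨ζ, -, i1, -, -, d1, -⟩ := dom hc.isSelfAdjoint hP
    ((IsSelfAdjoint.all _).smul hx.mul_self_nonneg.isSelfAdjoint) H
  have h1 := smul_le_smul_of_nonneg_left d1 hε.le
  rw [smul_smul, mul_inv_cancel₀ hε.ne', one_smul, smul_add] at h1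
  obtain ⟨v, h2, h3⟩ := cuntz_below hx (smul_nonneg hε.le (star_mul_self_nonneg ζ)) hε h1
  have e : star v * ε • (star ζ * ζ) * v = star (ζ * (√ε • v)) * (ζ * (√ε • v)) := by
    simp only [star_mul, star_smul, star_trivial, mul_smul_comm, smul_mul_assoc, smul_smul,
      Real.mul_self_sqrt hε.le, mul_assoc]
  rw [e] at h2 h3
  refine ⟨_, i1.mul _, ?_, h3⟩
  nth_rw 1 [← hx.star_eq] at h2
  have := norm_sq_le_of_le zero_le_one (by rwa [one_smul])
  rw [one_mul] at this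
  exact (sq_le_sq₀ (norm_nonneg _) (norm_nonneg _)).1 this

/-- the unital form of the theorem -/
theorem unital_main {x y : E} (hx : IsSelfAdjoint x) (hy : IsSelfAdjoint y) (hPx : HP (x * x))
    (hPy : HP (y * y)) {ε : ℝ} (hε : 0 < ε) : ∃ r r' : E,
      ‖star (x * r) * (x * x) * (x * r) - x * x‖ ≤ ε ∧ ‖star (y * r') * (y * y) * (y * r') - y * y‖ ≤ ε ∧
        ‖star (x * r) * (x * y) * (y * r')‖ ≤ ε := by
  obtain ⟨n, hn⟩ := exists_pow_lt_of_lt_one
    (show 0 < ε / ((‖(1 : E)‖ + 1) * (‖x‖ + 1) * (‖y‖ + 1)) by positivity)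
    (show (19 / 20 : ℝ) < 1 by norm_num)
  have al (z : E) : Al (ε⁻¹ • z) z := (((In.refl z).lt).smul _).al
  obtain ⟨c, d, c0, d0, ca, db, alc, ald, an⟩ :=
    iterate (x := 1) hx.mul_self_nonneg hy.mul_self_nonneg hPx (al _) (al _) n
  obtain ⟨ξ, i1, n1, h1⟩ := realize hx c0 (hPx.sq ca c0.isSelfAdjoint) hε alc
  obtain ⟨ζ, i2, n2, h2⟩ := realize hy d0 (hPy.sq db d0.isSelfAdjoint) hε ald
  have h3 := an.apply i1 i2
  obtain ⟨r, rfl⟩ := i1.trans ca
  obtain ⟨r', rfl⟩ := i2.trans db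
  refine ⟨r, r', ?_, ?_, ?_⟩
  · simpa only [star_mul, hx.star_eq, mul_assoc] using h1
  · simpa only [star_mul, hy.star_eq, mul_assoc] using h2
  · have e : star (x * r) * (x * y) * (y * r') = star (x * x * r) * 1 * (y * y * r') := by
      simp only [star_mul, hx.star_eq, mul_assoc, one_mul]
    rw [e]
    refine h3.trans ?_
    rw [lt_div_iff₀ (by positivity)] at hn
    refine le_trans ?_ hn.le
    rw [← mul_assoc, ← mul_assoc]
    gcongr
    · exact n1.trans (by linarith)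
    · exact n2.trans (by linarith)

end Vale.Agent.P133
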